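import Vale.Agent.P214.FV.Cyl

/-!
# P214, block B4: splitting a cylindrically stationary measure along height windows

If over the open set `G'` of base points the measure lives in a set `A` and in its complement, and a
`C^1` function separates the two parts (locally constant `1` resp. `0` near the points of the
measure), then the restriction to `A` is again stationary in the cylinder over `G'`.  Corollary for
finitely many separated height windows (closed balls in the height variable).
-/

open Set Filter Topology MeasureTheory Metric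
open scoped RealInnerProductSpace

set_option linter.all false

namespace Vale.Agent.P214.B4

open Vale.Agent.P214.FV

variable {E : Type*} [NormedAddCommGroup E] [InnerProductSpace ℝ E] [FiniteDimensional ℝ E]
  [MeasurableSpace E] [BorelSpace E]
variable {m : ℕ} {T : Submodule ℝ E} {G G' : Set E} {h : ℝ} {ν : Measure E} {P : E → E →L[ℝ] E}

/-- restriction of the base set -/
lemma CylStat.mono_base (hC : CylStat m T G h ν P) (hG' : IsOpen G') (hGG : G' ⊆ G) :
    CylStat m T G' h ν P where
  fin := hC.fin
  meas := hC.meas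
  proj := hC.proj
  dimT := hC.dimT
  isOpen := hG'
  slab := by
    filter_upwards [hC.slab] with y hy hyG using hy (hGG hyG)
  stat := fun X hX ⟨K, hK, hKG, h0⟩ => hC.stat X hX ⟨K, hK, hKG.trans hGG, h0⟩

/-- **Splitting off a part of the measure.** -/
theorem CylStat.restrict_of_cut (hC : CylStat m T G h ν P) (hG' : IsOpen G') (hGG : G' ⊆ G)
    {A : Set E} (hA : MeasurableSet A) {χ : E → ℝ} (hχ : ContDiff ℝ 1 χ)
    (h1 : ∀ᵐ y ∂ν, T.starProjection y ∈ G' →
      (y ∈ A → χ =ᶠ[𝓝 y] fun _ => 1) ∧ (y ∉ A → χ =ᶠ[𝓝 y] fun _ => 0)) :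
    CylStat m T G' h (ν.restrict A) P where
  fin := by haveI := hC.fin; infer_instance
  meas := hC.meas.restrict
  proj := ae_restrict_of_ae hC.proj
  dimT := hC.dimT
  isOpen := hG'
  slab := by
    refine ae_restrict_of_ae ?_
    filter_upwards [hC.slab] with y hy hyG using hy (hGG hyG)
  stat := by
    rintro X hX ⟨K, hK, hKG, h0⟩
    have hb : BaseCpt T G (fun y => χ y • X y) :=
      ⟨K, hK, hKG.trans hGG, fun y hy => by simp only [h0 y hy, smul_zero]⟩
    have key := hC.stat (fun y => χ y • X y) (hχ.smul hX) hb
    rw [← integral_indicator hA, ← key]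
    refine integral_congr_ae ?_
    filter_upwards [h1] with y hy
    by_cases hyK : T.starProjection y ∈ G'
    · obtain ⟨ha, hb'⟩ := hy hyK
      by_cases hyA : y ∈ A
      · rw [indicator_of_mem hyA]
        have : (fun y => χ y • X y) =ᶠ[𝓝 y] X := by
          filter_upwards [ha hyA] with z hz
          rw [hz, one_smul]
        rw [this.fderiv_eq]
      · rw [indicator_of_notMem hyA]
        have : (fun y => χ y • X y) =ᶠ[𝓝 y] fun _ => (0 : E) := by
          filter_upwards [hb' hyA] with z hz
          rw [hz, zero_smul]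
        rw [this.fderiv_eq]
        simp [tr_zero]
    · -- outside the base set `G'` everything vanishes near `y`
      have hopen : IsOpen {z : E | T.starProjection z ∉ K} :=
        hK.isClosed.isOpen_compl.preimage T.starProjection.continuous
      have hyK' : y ∈ {z : E | T.starProjection z ∉ K} := fun hh => hyK (hKG hh)
      have e1 : X =ᶠ[𝓝 y] fun _ => (0 : E) := by
        filter_upwards [hopen.mem_nhds hyK'] with z hz using h0 z hz
      have e2 : (fun y => χ y • X y) =ᶠ[𝓝 y] fun _ => (0 : E) := by
        filter_upwards [hopen.mem_nhds hyK'] with z hz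
        rw [h0 z hz, smul_zero]
      rw [e2.fderiv_eq]
      have : (A.indicator fun y => tr ((fderiv ℝ X y).comp (P y))) y = 0 := by
        by_cases hyA : y ∈ A
        · rw [indicator_of_mem hyA, e1.fderiv_eq]; simp [tr_zero]
        · rw [indicator_of_notMem hyA]
      rw [this]
      simp [tr_zero]

/-- the height window: points whose height is within `r` of `c` -/
def win (T : Submodule ℝ E) (c : E) (r : ℝ) : Set E :=
  {y | ‖(y - T.starProjection y) - c‖ ≤ r}

omit [MeasurableSpace E] [BorelSpace E] in
lemma isClosed_win (T : Submodule ℝ E) (c : E) (r : ℝ) : IsClosed (win T c r) :=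
  isClosed_le ((continuous_id.sub T.starProjection.continuous).sub continuous_const).norm
    continuous_const

lemma measurableSet_win (T : Submodule ℝ E) (c : E) (r : ℝ) : MeasurableSet (win T c r) :=
  (isClosed_win T c r).measurableSet

/-- **Finitely many separated height windows**: each window carries a stationary piece. -/
theorem CylStat.restrict_win (hC : CylStat m T G h ν P) (hG' : IsOpen G') (hGG : G' ⊆ G)
    {ι : Type*} (c : ι → E) (r : ι → ℝ) (hr : ∀ i, 0 ≤ r i) {w : ℝ} (hw : 0 < w)
    (hsep : ∀ i j, i ≠ j → r i + r j + w ≤ ‖c i - c j‖)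
    (hin : ∀ᵐ y ∂ν, T.starProjection y ∈ G' → ∃ i, y ∈ win T (c i) (r i)) (i : ι) :
    CylStat m T G' h (ν.restrict (win T (c i) (r i))) P := by
  have hri := hr i
  set b : ContDiffBump (c i) := ⟨r i + w / 3, r i + 2 * w / 3, by positivity, by linarith⟩ with hbdef
  set χ : E → ℝ := fun y => b (y - T.starProjection y) with hχdef
  have hη : ContDiff ℝ 1 (fun y : E => y - T.starProjection y) :=
    contDiff_id.sub T.starProjection.contDiff
  have hχ : ContDiff ℝ 1 χ := (b.contDiff (n := 1)).comp hη
  refine CylStat.restrict_of_cut hC hG' hGG (measurableSet_win T _ _) hχ ?_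
  filter_upwards [hin] with y hy hyG
  have hcont : Continuous fun y : E => ‖(y - T.starProjection y) - c i‖ :=
    ((continuous_id.sub T.starProjection.continuous).sub continuous_const).norm
  refine ⟨fun hyi => ?_, fun hyi => ?_⟩
  · have h2 : ‖(y - T.starProjection y) - c i‖ < r i + w / 3 := by
      have : ‖(y - T.starProjection y) - c i‖ ≤ r i := hyi
      linarith
    filter_upwards [(isOpen_lt hcont continuous_const).mem_nhds h2] with z hz
    refine b.one_of_mem_closedBall ?_
    rw [mem_closedBall, dist_eq_norm]
    exact hz.le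
  · obtain ⟨j, hj⟩ := hy hyG
    have hij : i ≠ j := fun hij => hyi (hij ▸ hj)
    have h3 : ‖(y - T.starProjection y) - c j‖ ≤ r j := hj
    have h2 : r i + 2 * w / 3 < ‖(y - T.starProjection y) - c i‖ := by
      have h4 := hsep i j hij
      have h5 : ‖c i - c j‖ ≤ ‖(y - T.starProjection y) - c i‖ + ‖(y - T.starProjection y) - c j‖ := by
        have : c i - c j = -((y - T.starProjection y) - c i) + ((y - T.starProjection y) - c j) := by
          abel
        rw [this]
        refine (norm_add_le _ _).trans ?_
        rw [norm_neg]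
      linarith
    filter_upwards [(isOpen_lt continuous_const hcont).mem_nhds h2] with z hz
    refine b.zero_of_le_dist ?_
    rw [dist_eq_norm]
    exact hz.le

omit [FiniteDimensional ℝ E] [MeasurableSpace E] [BorelSpace E] in
/-- the windows are disjoint -/
lemma disjoint_win [FiniteDimensional ℝ E] {ι : Type*} {c : ι → E} {r : ι → ℝ} {w : ℝ} (hw : 0 < w)
    (hsep : ∀ i j, i ≠ j → r i + r j + w ≤ ‖c i - c j‖) {i j : ι} (hij : i ≠ j) :
    Disjoint (win T (c i) (r i)) (win T (c j) (r j)) := by
  rw [Set.disjoint_left]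
  intro y hi hj
  have h1 : ‖(y - T.starProjection y) - c i‖ ≤ r i := hi
  have h3 : ‖(y - T.starProjection y) - c j‖ ≤ r j := hj
  have h4 := hsep i j hij
  have h5 : ‖c i - c j‖ ≤ ‖(y - T.starProjection y) - c i‖ + ‖(y - T.starProjection y) - c j‖ := by
    have : c i - c j = -((y - T.starProjection y) - c i) + ((y - T.starProjection y) - c j) := by
      abel
    rw [this]
    refine (norm_add_le _ _).trans ?_
    rw [norm_neg]
  linarith

/-- integrals over the cylinder over `G'` split into the windows -/
lemma integral_split {ι : Type*} [Fintype ι] {c : ι → E} {r : ι → ℝ} {w : ℝ} (hw : 0 < w)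
    (hsep : ∀ i j, i ≠ j → r i + r j + w ≤ ‖c i - c j‖)
    (hin : ∀ᵐ y ∂ν, T.starProjection y ∈ G' → ∃ i, y ∈ win T (c i) (r i))
    {F : Type*} [NormedAddCommGroup F] [NormedSpace ℝ F]
    {f : E → F} (hf : Integrable f ν) (h0 : ∀ᵐ y ∂ν, T.starProjection y ∉ G' → f y = 0) :
    ∫ y, f y ∂ν = ∑ i, ∫ y in win T (c i) (r i), f y ∂ν := by
  rw [← integral_iUnion_fintype (fun i => measurableSet_win T _ _)
    (fun i j hij => disjoint_win (T := T) hw hsep hij) (fun i => hf.integrableOn)]
  rw [← integral_indicator (MeasurableSet.iUnion fun i => measurableSet_win T _ _)]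
  refine integral_congr_ae ?_
  filter_upwards [hin, h0] with y hy hy0
  by_cases hyG : T.starProjection y ∈ G'
  · obtain ⟨i, hi⟩ := hy hyG
    rw [indicator_of_mem (mem_iUnion.2 ⟨i, hi⟩)]
  · rw [hy0 hyG]
    by_cases hyU : y ∈ ⋃ i, win T (c i) (r i)
    · rw [indicator_of_mem hyU, hy0 hyG]
    · rw [indicator_of_notMem hyU]

/-- measures of sets in the cylinder over `G'` split into the windows -/
lemma measure_split {ι : Type*} [Fintype ι] {c : ι → E} {r : ι → ℝ} {w : ℝ} (hw : 0 < w)
    (hsep : ∀ i j, i ≠ j → r i + r j + w ≤ ‖c i - c j‖)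
    (hin : ∀ᵐ y ∂ν, T.starProjection y ∈ G' → ∃ i, y ∈ win T (c i) (r i))
    {B : Set E} (hB : ∀ y ∈ B, T.starProjection y ∈ G') :
    ν B = ∑ i, ν.restrict (win T (c i) (r i)) B := by
  have h1 : ν B = ν (B ∩ ⋃ i, win T (c i) (r i)) := by
    refine measure_congr ?_
    filter_upwards [hin] with y hy
    refine propext ⟨fun hyB => ⟨hyB, ?_⟩, fun h => h.1⟩
    obtain ⟨i, hi⟩ := hy (hB y hyB)
    exact mem_iUnion.2 ⟨i, hi⟩
  have hU : MeasurableSet (⋃ i, win T (c i) (r i)) :=
    MeasurableSet.iUnion fun i => measurableSet_win T _ _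
  rw [h1, ← Measure.restrict_apply' hU,
    Measure.restrict_iUnion (fun i j hij => disjoint_win (T := T) hw hsep hij)
      (fun i => measurableSet_win T _ _), Measure.sum_fintype, Measure.finsetSum_apply]

end Vale.Agent.P214.B4
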