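import Vale.Agent.P214.TH.Main
import Vale.Agent.P214.B4.Split

/-!
# P214, block B4: dichotomy for the heights over a base ball

`dich`: if no point of the base ball sees an energy `≥ c R²/L` at the scales between `R` and `t`,
then either all heights over `ball x t` lie in a ball of radius `C₀ R`, or the heights over
`ball x (2t)` have a gap of size `4R`, and both sides of the gap carry mass `≥ c₁ t^m`.
-/

open Set Filter Topology MeasureTheory Metric
open scoped RealInnerProductSpace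

set_option linter.all false

namespace Vale.Agent.P214.B4

open Vale.Agent.P214.FV Vale.Agent.P214.ODE Vale.Agent.P214.TH

variable {E : Type*} [NormedAddCommGroup E] [InnerProductSpace ℝ E] [FiniteDimensional ℝ E]
  [MeasurableSpace E] [BorelSpace E]

/-- the cylinder over the base ball of radius `t` about `x` -/
def cy (T : Submodule ℝ E) (x : E) (t : ℝ) : Set E := {y | ‖bx T x y‖ < t}

/-- the heights over the base ball have a gap -/
def Cut (T : Submodule ℝ E) (ν : Measure E) (x : E) (t : ℝ) (c : E)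
    (r w : ℝ) : Prop :=
  0 ≤ r ∧ 0 < w ∧ ∀ᵐ y ∂ν, y ∈ cy T x t → ‖hgt T c y‖ ≤ r ∨ r + w ≤ ‖hgt T c y‖

/-- lower density at the point `y`, down from the scale `t` -/
def LDpt (m : ℕ) (a : ℝ) (ν : Measure E) (t : ℝ) (y : E) : Prop :=
  ∀ s, 0 < s → s ≤ t → a * s ^ m ≤ ν.real (ball y s)

lemma bx_sub (T : Submodule ℝ E) (x z y : E) : bx T x y = bx T z y + bx T x z := by
  simp only [bx_eq]; abel

lemma mem_winSet {T : Submodule ℝ E} {z c : E} {ρ t : ℝ} (ht : 0 ≤ t) {y : E} :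
    y ∈ winSet T z c ρ t ↔ ‖bx T z y‖ < t ∧ ‖hgt T c y‖ < ρ := by
  unfold winSet bsq
  rw [mem_setOf_eq, sq_lt_sq₀ (norm_nonneg _) ht]

lemma isOpen_cy (T : Submodule ℝ E) (x : E) (t : ℝ) : IsOpen (cy T x t) :=
  isOpen_lt (continuous_bx T x).norm continuous_const

lemma cy_mono {T : Submodule ℝ E} {x : E} {s t : ℝ} (h : s ≤ t) : cy T x s ⊆ cy T x t :=
  fun y (hy : ‖bx T x y‖ < s) => show ‖bx T x y‖ < t from hy.trans_le h

lemma winSet_subset_cy {T : Submodule ℝ E} {x z c : E} {ρ s t r : ℝ} (hs : 0 ≤ s)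
    (hz : ‖bx T x z‖ ≤ r) (h : s + r ≤ t) : winSet T z c ρ s ⊆ cy T x t := by
  intro y hy
  rw [mem_winSet hs] at hy
  show ‖bx T x y‖ < t
  rw [bx_sub T x z y]
  calc ‖bx T z y + bx T x z‖ ≤ ‖bx T z y‖ + ‖bx T x z‖ := norm_add_le _ _
    _ < s + r := add_lt_add_of_lt_of_le hy.1 hz
    _ ≤ t := h

lemma hgt_sub (T : Submodule ℝ E) (c d y : E) : hgt T c y = hgt T d y + (d - c) := by
  unfold hgt; abel

lemma hgt_co (T : Submodule ℝ E) (c z : E) : hgt T c z = co T z - c := rfl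

variable {m : ℕ} {T : Submodule ℝ E} {G : Set E} {h : ℝ} {ν : Measure E} {P : E → E →L[ℝ] E}
  {x : E} {k k' K : ℝ → ℝ}

lemma Cut.mono {s t : ℝ} {c : E} {r w : ℝ} (h : Cut T ν x t c r w) (hst : s ≤ t) :
    Cut T ν x s c r w :=
  ⟨h.1, h.2.1, by filter_upwards [h.2.2] with y hy hys using hy (cy_mono hst hys)⟩

lemma Cut.mono_ball {s t : ℝ} {x' c : E} {r w : ℝ} (h : Cut T ν x t c r w)
    (hst : cy T x' s ⊆ cy T x t) : Cut T ν x' s c r w :=
  ⟨h.1, h.2.1, by filter_upwards [h.2.2] with y hy hys using hy (hst hys)⟩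

/-- the constant in the energy hypothesis -/
noncomputable def dA (m : ℕ) (κ κ₁ B a : ℝ) : ℝ :=
  2 / (κ₁ * (2 : ℝ) ^ (2 - (m : ℤ)) * gapC m κ B a)

/-- the mass constant -/
noncomputable def dc (m : ℕ) (κ B a : ℝ) : ℝ := κ * a * (1 / 2) ^ m / (2 * (B + 1))

/-- **Window mass**: around every point of lower density the window of half-width `R` has mass
`≥ c t^m`, unless there is energy `≥ c R²/L` at some scale in `[R,t]`. -/
lemma window_mass (hC : CylStat m T G h ν P) (hk : Kern k k' K) {B κ κ₁ : ℝ} (hB0 : 0 ≤ B)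
    (hB : ∀ s, 0 ≤ s → |k s| ≤ B ∧ |k' s| ≤ B ∧ |K s| ≤ B)
    (hκ0 : 0 < κ) (hκ : ∀ s, 0 ≤ s → s ≤ 1 / 4 → κ ≤ k s)
    (hκ₁0 : 0 < κ₁) (hκ₁ : ∀ s, 0 ≤ s → s ≤ 1 / 4 → κ₁ ≤ K s)
    {y₀ : E} {a R t t₁ L : ℝ} (ha : 0 < a) (hR : 0 < R) (hRt : R ≤ t) (ht : t < t₁)
    (hG : BallIn T G y₀ t₁) (hLD : LDpt m a ν t y₀) (hL1 : 1 ≤ L) (hL : Real.log (t / R) ≤ L)
    (hE : ∀ t' ∈ Icc R t, dA m κ κ₁ B a * L * tiltK m T y₀ K P ν (2 * t') ≤ R ^ 2) :
    dc m κ B a * t ^ m ≤ ν.real (winSet T y₀ (co T y₀) R t) := by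
  by_contra hcon
  push Not at hcon
  have ht0 : 0 < t := hR.trans_le hRt
  have hfrac : hgtK m T y₀ k (winF T (co T y₀) R) ν t ≤ κ * a * (1 / 2) ^ m / 2 := by
    refine (hgtK_win_le_mass hC hk hB0 (fun s hs => (hB s hs).1) hR ht0).trans ?_
    rw [div_le_iff₀ (by positivity)]
    have h1 : B * ν.real (winSet T y₀ (co T y₀) R t) ≤ B * (dc m κ B a * t ^ m) := by
      gcongr
    refine h1.trans ?_
    unfold dc
    have h2 : B * (κ * a * (1 / 2) ^ m / (2 * (B + 1)) * t ^ m)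
        = (B / (B + 1)) * (κ * a * (1 / 2) ^ m / 2 * t ^ m) := by
      field_simp
    rw [h2]
    have h3 : B / (B + 1) ≤ 1 := by
      rw [div_le_one (by positivity)]; linarith
    calc (B / (B + 1)) * (κ * a * (1 / 2) ^ m / 2 * t ^ m)
        ≤ 1 * (κ * a * (1 / 2) ^ m / 2 * t ^ m) := by gcongr
      _ = _ := one_mul _
  obtain ⟨t', ht', hlt⟩ := thin_gap hC hk hB0 hB hκ0 hκ hκ₁0 hκ₁ (y₀ := y₀) ha hR hRt ht hG
    (hLD (R / 2) (by positivity) (by linarith)) hfrac hL1 hL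
  have h1 := hE t' ht'
  have hg := gapC_pos (m := m) hκ0 hB0 ha
  have hpos : 0 < κ₁ * (2 : ℝ) ^ (2 - (m : ℤ)) * gapC m κ B a := by positivity
  have h2 : dA m κ κ₁ B a * L * (κ₁ * (2 : ℝ) ^ (2 - (m : ℤ)) * gapC m κ B a * R ^ 2 / (2 * L))
      < dA m κ κ₁ B a * L * tiltK m T y₀ K P ν (2 * t') := by
    have : 0 < dA m κ κ₁ B a := by unfold dA; positivity
    have hL0 : 0 < L := by linarith
    gcongr
  have h3 : dA m κ κ₁ B a * L * (κ₁ * (2 : ℝ) ^ (2 - (m : ℤ)) * gapC m κ B a * R ^ 2 / (2 * L))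
      = R ^ 2 := by
    unfold dA
    have hL0 : L ≠ 0 := by positivity
    have := hpos.ne'
    field_simp
  linarith

/-- a point of lower density exists where the measure is positive -/
lemma exists_LD {p : E → Prop} (hLD : ∀ᵐ y ∂ν, p y) {s : Set E} (hs : ¬ ∀ᵐ y ∂ν, y ∉ s) :
    ∃ y, p y ∧ y ∈ s := by
  by_contra hcon
  push Not at hcon
  apply hs
  filter_upwards [hLD] with y hy using hcon y hy

/-- **Dichotomy.**  The heights over `ball x s₀`, `s₀ ≥ 2t`, have a gap with mass on both sides over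
`ball x (2t)`, unless the heights over `ball x t` form a single cluster of size `C R`. -/
theorem dich (hC : CylStat m T G h ν P) (hk : Kern k k' K) {B κ κ₁ : ℝ} (hB0 : 0 ≤ B)
    (hB : ∀ s, 0 ≤ s → |k s| ≤ B ∧ |k' s| ≤ B ∧ |K s| ≤ B)
    (hκ0 : 0 < κ) (hκ : ∀ s, 0 ≤ s → s ≤ 1 / 4 → κ ≤ k s)
    (hκ₁0 : 0 < κ₁) (hκ₁ : ∀ s, 0 ≤ s → s ≤ 1 / 4 → κ₁ ≤ K s)
    {a R t s₀ L M : ℝ} (ha : 0 < a) (hR : 0 < R) (hRt : R ≤ t) (hs₀ : 2 * t ≤ s₀)
    (hG : BallIn T G x (s₀ + 2 * t)) (hLD : ∀ᵐ y ∂ν, y ∈ cy T x s₀ → LDpt m a ν t y)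
    (hM : ν.real (cy T x (s₀ + t)) ≤ M * t ^ m)
    (hL1 : 1 ≤ L) (hL : Real.log (t / R) ≤ L)
    (hE : ∀ x₀ ∈ cy T x s₀, ∀ t' ∈ Icc R t,
      dA m κ κ₁ B a * L * tiltK m T x₀ K P ν (2 * t') ≤ R ^ 2)
    {N : ℕ} (hN : M < N * dc m κ B a) :
    (∀ y₁ ∈ cy T x t, LDpt m a ν t y₁ →
      ∀ᵐ y ∂ν, y ∈ cy T x t → ‖hgt T (co T y₁) y‖ ≤ (8 * N + 1) * R) ∨
    ∃ c r, c ∈ Tᗮ ∧ Cut T ν x s₀ c r (4 * R) ∧ R ≤ r ∧ r ≤ (8 * N + 1) * R ∧
      dc m κ B a * t ^ m ≤ ν.real (cy T x (2 * t) ∩ {y | ‖hgt T c y‖ ≤ r}) ∧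
      dc m κ B a * t ^ m ≤ ν.real (cy T x (2 * t) ∩ {y | r + 4 * R ≤ ‖hgt T c y‖}) := by
  haveI := hC.fin
  have ht0 : 0 < t := hR.trans_le hRt
  have hcm : 0 < dc m κ B a := by unfold dc; positivity
  by_cases H : ∀ y₁ ∈ cy T x t, LDpt m a ν t y₁ →
      ∀ᵐ y ∂ν, y ∈ cy T x t → ‖hgt T (co T y₁) y‖ ≤ (8 * N + 1) * R
  · exact Or.inl H
  right
  push Not at H
  obtain ⟨y₁, hy₁, hy₁D, hne⟩ := H
  -- window masses
  have hW : ∀ y₀ ∈ cy T x s₀, LDpt m a ν t y₀ →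
      dc m κ B a * t ^ m ≤ ν.real (winSet T y₀ (co T y₀) R t) := by
    intro y₀ hy₀ hD
    refine window_mass hC hk hB0 hB hκ0 hκ hκ₁0 hκ₁ ha hR hRt (t₁ := 2 * t) (by linarith) ?_ hD hL1 hL
      (hE y₀ hy₀)
    intro z hz hz2
    refine hG z hz ?_
    have h1 : ‖T.starProjection y₀ - T.starProjection x‖ < s₀ := by
      rw [← bx_eq]; exact hy₀
    calc ‖z - T.starProjection x‖
        = ‖(z - T.starProjection y₀) + (T.starProjection y₀ - T.starProjection x)‖ := by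
          congr 1; abel
      _ ≤ ‖z - T.starProjection y₀‖ + ‖T.starProjection y₀ - T.starProjection x‖ :=
          norm_add_le _ _
      _ ≤ 2 * t + s₀ := add_le_add hz2 h1.le
      _ = s₀ + 2 * t := by ring
  -- the second point
  obtain ⟨y₂, hy₂D, hy₂, hfar⟩ : ∃ y₂, LDpt m a ν t y₂ ∧ y₂ ∈ cy T x t ∧
      (8 * N + 1) * R < ‖hgt T (co T y₁) y₂‖ := by
    have h1 : ¬ ∀ᵐ y ∂ν, y ∉ {y | y ∈ cy T x t ∧ (8 * N + 1) * R < ‖hgt T (co T y₁) y‖} := by
      intro hcon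
      apply hne
      filter_upwards [hcon] with y hy hyt using hy hyt
    obtain ⟨y₂, hp, hy₂, hf⟩ := exists_LD hLD h1
    exact ⟨y₂, hp (cy_mono (by linarith) hy₂), hy₂, hf⟩
  set c : E := co T y₁ with hc
  have hcT : c ∈ Tᗮ := by
    rw [hc, co_eq]; exact Submodule.starProjection_apply_mem _ _
  -- pigeonhole: some interval of heights is free
  have hgap : ∃ i : ℕ, i < N ∧ ∀ y ∈ cy T x s₀, LDpt m a ν t y →
      ¬ (8 * R * i + 4 * R < ‖hgt T c y‖ ∧ ‖hgt T c y‖ < 8 * R * i + 8 * R) := by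
    by_contra hcon
    push Not at hcon
    choose! z hz1 hz2 hz3 hz4 using hcon
    -- the windows about `z i` are disjoint
    have hdisj : Set.PairwiseDisjoint (↑(Finset.range N) : Set ℕ)
        (fun i => winSet T (z i) (co T (z i)) R t) := by
      intro i hi j hj hij
      rw [Function.onFun, Set.disjoint_left]
      intro y hyi hyj
      rw [mem_winSet ht0.le] at hyi hyj
      have hi' : i < N := by simpa using hi
      have hj' : j < N := by simpa using hj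
      have key : ∀ i j : ℕ, i < N → j < N → i < j → ‖hgt T (co T (z i)) y‖ < R →
          ‖hgt T (co T (z j)) y‖ < R → False := by
        intro i j hi hj hlt h1 h2
        have h3 := hz4 i hi
        have h4 := hz3 j hj
        have h5 : (i : ℝ) + 1 ≤ j := by exact_mod_cast hlt
        have h6 : hgt T c (z j) = hgt T c (z i) + (hgt T (co T (z i)) y - hgt T (co T (z j)) y) := by
          unfold hgt; abel
        have h7 : ‖hgt T c (z j)‖ ≤ ‖hgt T c (z i)‖ + (‖hgt T (co T (z i)) y‖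
            + ‖hgt T (co T (z j)) y‖) := by
          rw [h6]
          exact (norm_add_le _ _).trans (by gcongr; exact norm_sub_le _ _)
        nlinarith
      rcases lt_or_gt_of_ne hij with hlt | hlt
      · exact key i j hi' hj' hlt hyi.2 hyj.2
      · exact key j i hj' hi' hlt hyj.2 hyi.2
    have hsum : ∑ i ∈ Finset.range N, ν.real (winSet T (z i) (co T (z i)) R t)
        ≤ ν.real (cy T x (s₀ + t)) := by
      rw [← measureReal_biUnion_finset hdisj
        (fun i _ => (isOpen_winSet T _ _ _ _).measurableSet)]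
      refine measureReal_mono ?_
      intro y hy
      simp only [mem_iUnion] at hy
      obtain ⟨i, hi, hyi⟩ := hy
      have hi' : i < N := by simpa using hi
      exact winSet_subset_cy ht0.le (le_of_lt (hz1 i hi')) (by linarith) hyi
    have hlow : (N : ℝ) * (dc m κ B a * t ^ m)
        ≤ ∑ i ∈ Finset.range N, ν.real (winSet T (z i) (co T (z i)) R t) := by
      calc (N : ℝ) * (dc m κ B a * t ^ m) = ∑ i ∈ Finset.range N, dc m κ B a * t ^ m := by simp
        _ ≤ _ := Finset.sum_le_sum fun i hi => by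
            have hi' : i < N := by simpa using hi
            exact hW _ (hz1 i hi') (hz2 i hi')
    have htm : 0 < t ^ m := by positivity
    have : (N : ℝ) * (dc m κ B a * t ^ m) ≤ M * t ^ m := hlow.trans (hsum.trans hM)
    have h8 : (N * dc m κ B a) * t ^ m ≤ M * t ^ m := by linarith
    have h9 := le_of_mul_le_mul_right h8 htm
    linarith
  obtain ⟨i, hiN, hi⟩ := hgap
  have hiN' : (i : ℝ) + 1 ≤ N := by exact_mod_cast hiN
  have hi0 : (0 : ℝ) ≤ i := by positivity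
  refine ⟨c, 8 * R * i + 4 * R, hcT, ⟨by positivity, by positivity, ?_⟩, by nlinarith, by nlinarith,
    ?_, ?_⟩
  · filter_upwards [hLD] with y hy hyx
    have h1 := hi y hyx (hy hyx)
    by_contra hcon
    push Not at hcon
    exact h1 ⟨hcon.1, by linarith [hcon.2]⟩
  · refine (hW y₁ (cy_mono (by linarith) hy₁) hy₁D).trans (measureReal_mono ?_)
    intro y hy
    refine ⟨winSet_subset_cy ht0.le (le_of_lt hy₁) (by linarith) hy, ?_⟩
    rw [mem_winSet ht0.le] at hy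
    show ‖hgt T c y‖ ≤ _
    have := hy.2
    nlinarith
  · refine (hW y₂ (cy_mono (by linarith) hy₂) hy₂D).trans (measureReal_mono ?_)
    intro y hy
    refine ⟨winSet_subset_cy ht0.le (le_of_lt hy₂) (by linarith) hy, ?_⟩
    rw [mem_winSet ht0.le] at hy
    show 8 * R * i + 4 * R + 4 * R ≤ ‖hgt T c y‖
    have h1 : hgt T c y₂ = hgt T c y - hgt T (co T y₂) y := by
      unfold hgt; abel
    have h2 : ‖hgt T c y₂‖ ≤ ‖hgt T c y‖ + ‖hgt T (co T y₂) y‖ := by
      rw [h1]; exact norm_sub_le _ _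
    nlinarith [hy.2]

end Vale.Agent.P214.B4
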