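import Vale.Agent.P214.B4.Down
import Vale.Agent.P214.QP.IntV

/-!
# P214, block B4: the dichotomy for integral cylinders in dimension two
-/

open Set Filter Topology MeasureTheory Metric
open scoped RealInnerProductSpace ENNReal

set_option linter.all false

namespace Vale.Agent.P214.B4

open Vale.Agent.P214.FV

variable {E : Type*} [NormedAddCommGroup E] [InnerProductSpace ℝ E] [FiniteDimensional ℝ E]
  [MeasurableSpace E] [BorelSpace E]

variable {m Q : ℕ} {T : Submodule ℝ E} {x z : E} {R t h δ : ℝ} {ν : Measure E}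
  {P : E → E →L[ℝ] E}

/-- lower density at the support points of an integral cylinder -/
lemma ldpt_of_int (hI : Skel.IntCyl m Q T z R h δ ν P) {y : E} (hy : y ∈ ν.support)
    (hb : ‖T.starProjection y - z‖ + t ≤ R) : LDpt m (cg m) ν t y := by
  intro s hs hst
  haveI := hI.cyl.fin
  have h1 : ∀ s' ∈ Ioo 0 s, cg m * s' ^ m ≤ ν.real (ball y s) := by
    intro s' hs'
    exact (QP.low_intCyl hI hy hs'.1 (by linarith [hs'.2])).trans
      (measureReal_mono (closedBall_subset_ball hs'.2))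
  have h2 : Tendsto (fun s' : ℝ => cg m * s' ^ m) (𝓝[<] s) (𝓝 (cg m * s ^ m)) := by
    have : Continuous fun s' : ℝ => cg m * s' ^ m := by fun_prop
    exact (this.tendsto s).mono_left nhdsWithin_le_nhds
  refine le_of_tendsto h2 ?_
  filter_upwards [Ioo_mem_nhdsLT hs] with s' hs' using h1 s' hs'

lemma ae_ldpt_of_int (hI : Skel.IntCyl m Q T z R h δ ν P) (hx : x ∈ T) {s : ℝ}
    (hb : ‖x - z‖ + s + t ≤ R) : ∀ᵐ y ∂ν, y ∈ cy T x s → LDpt m (cg m) ν t y := by
  filter_upwards [ν.support_mem_ae] with y hy hys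
  refine ldpt_of_int hI hy ?_
  rw [← cylSet_eq_cy hx] at hys
  have h1 : ‖T.starProjection y - x‖ < s := by
    rw [← dist_eq_norm]; exact hys
  calc ‖T.starProjection y - z‖ + t = ‖(T.starProjection y - x) + (x - z)‖ + t := by
        congr 2; abel
    _ ≤ s + ‖x - z‖ + t := by gcongr; exact (norm_add_le _ _).trans (by gcongr)
    _ ≤ R := by linarith

/-- **Dichotomy for integral cylinders, `m = 2`**: over `ball x t` all heights are within `C R₁`
of one height, or the cylinder splits over `ball x (8 t)`. -/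
theorem dich_int {M : ℝ} : ∃ A c C : ℝ, 0 < A ∧ 0 < c ∧ 1 ≤ C ∧
    ∀ (Q : ℕ) (T : Submodule ℝ E) (z : E) (R h δ : ℝ) (ν : Measure E) (P : E → E →L[ℝ] E),
      Skel.IntCyl 2 Q T z R h δ ν P → ∀ x ∈ T, ∀ t R₁ L : ℝ, ‖x - z‖ + 10 * t < R →
      ν.real (Skel.cylSet T x (9 * t)) ≤ M * t ^ 2 → 0 < R₁ → R₁ ≤ t → 1 ≤ L →
      Real.log (t / R₁) ≤ L → A * L * Skel.exc T ν P x (10 * t) ≤ R₁ ^ 2 →
      (∃ b ∈ Tᗮ, ∀ᵐ y ∂ν, y ∈ Skel.cylSet T x t → ‖co T y - b‖ ≤ C * R₁) ∨
        Split 2 T ν x (8 * t) c := by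
  obtain ⟨A, c, C, hA, hc, hC, H⟩ := dich_two (E := E) (a := cg 2) (M := M) (cg_pos 2)
  refine ⟨A, c, C, hA, hc, hC, ?_⟩
  intro Q T z R h δ ν P hI x hx t R₁ L hxt hmass hR₁ hR₁t hL hlog hexc
  have ht : 0 < t := hR₁.trans_le hR₁t
  haveI := hI.cyl.fin
  have hLD := ae_ldpt_of_int (t := t) hI hx (s := 8 * t) (by linarith)
  have hLD' := ae_ldpt_of_int (t := t) hI hx (s := t) (by linarith)
  have hexc' : A * L * QP.Dex T P ν x (10 * t) ≤ R₁ ^ 2 := by
    rw [← TCH.exc_eq hx (by positivity)]; exact hexc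
  rcases H hI.cyl (x := x) (t := t) (R := R₁) (L := L) (by
    intro y hy hyx
    rw [Submodule.starProjection_eq_self_iff.2 hx] at hyx
    rw [mem_ball, dist_eq_norm]
    calc ‖y - z‖ = ‖(y - x) + (x - z)‖ := by congr 1; abel
      _ ≤ ‖y - x‖ + ‖x - z‖ := norm_add_le _ _
      _ < R := by linarith) hLD (by rw [← cylSet_eq_cy hx]; exact hmass) hR₁ hR₁t hL hlog hexc'
    with h1 | h1
  · left
    by_cases h0 : ν (Skel.cylSet T x t) = 0
    · refine ⟨0, Submodule.zero_mem _, ?_⟩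
      have h2 : ∀ᵐ y ∂ν, y ∉ Skel.cylSet T x t := by
        rw [ae_iff]
        simpa using h0
      filter_upwards [h2] with y hy hy2 using absurd hy2 hy
    · obtain ⟨y₁, hy₁, hy₁'⟩ : ∃ y₁ ∈ Skel.cylSet T x t, y₁ ∈ cy T x t → LDpt 2 (cg 2) ν t y₁ := by
        by_contra hcon
        push Not at hcon
        refine h0 (measure_mono_null ?_ (ae_iff.1 hLD'))
        intro y hy hy2
        exact (hcon y hy).2 (hy2 (hcon y hy).1)
      rw [cylSet_eq_cy hx] at hy₁
      refine ⟨co T y₁, (by rw [FV.co_eq]; exact Submodule.starProjection_apply_mem _ _), ?_⟩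
      filter_upwards [h1 y₁ hy₁ (hy₁' hy₁)] with y hy hyx
      rw [cylSet_eq_cy hx] at hyx
      exact hy hyx
  · right; exact h1

end Vale.Agent.P214.B4
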