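import Vale.Agent.P214.B4.SplitInt
import Vale.Agent.P214.INTM.M2

/-!
# P214, block B4 (I1): integral cylinders at all scales above which the excess is small
-/

open Set Filter Topology MeasureTheory Metric
open scoped RealInnerProductSpace ENNReal

set_option linter.all false

namespace Vale.Agent.P214.B4

open Vale.Agent.P214.FV

variable {E : Type*} [NormedAddCommGroup E] [InnerProductSpace ℝ E] [FiniteDimensional ℝ E]
  [MeasurableSpace E] [BorelSpace E]

variable {m Q : ℕ}

/-- the black box N of INT-M holds -/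
theorem thmN (m : ℕ) : INTM.ThmN E m := by
  intro M ε hM hε
  obtain ⟨δ, hδ, H⟩ := INT.near_integer' (E := E) m hM hε
  refine ⟨δ, hδ, ?_⟩
  intro T G h ν P S θ J hI z r hr hG hmass hexc
  have hp : T.starProjection (T.starProjection z) = T.starProjection z :=
    Submodule.starProjection_eq_self_iff.2 (T.starProjection_apply_mem z)
  have hcyl : ∀ s, INT.cyl T (T.starProjection z) s = INT.cyl T z s := by
    intro s; unfold INT.cyl; rw [hp]
  obtain ⟨q, hq⟩ := H T G h ν P S θ J (T.starProjection z) r hI (T.starProjection_apply_mem z) hr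
    (by rw [hcyl]; exact preimage_mono hG) (by rw [hcyl]; exact hmass)
    (by unfold INT.exc at hexc ⊢; rw [hcyl]; exact hexc)
  refine ⟨q, ?_⟩
  unfold INT.htot at hq ⊢
  rwa [hp] at hq

variable {T : Submodule ℝ E} {x z : E} {R t h δ : ℝ} {ν : Measure E}
  {P : E → E →L[ℝ] E}

/-- `INT.exc` of the restricted measure in terms of `Skel.exc` -/
lemma int_exc_le (hC : CylStat m T (ball z R) h ν P) (A : Set E) (hA : MeasurableSet A) (hx : x ∈ T)
    {s : ℝ} (hs : 0 < s) : INT.exc m T (ν.restrict A) P x s ≤ 2 * Skel.exc T ν P x s / s ^ m := by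
  haveI := hC.fin
  unfold INT.exc
  have hpx : T.starProjection x = x := Submodule.starProjection_eq_self_iff.2 hx
  have hcyl : INT.cyl T x s = Skel.cylSet T x s := by
    unfold INT.cyl; rw [hpx]; rfl
  have hcm : MeasurableSet (Skel.cylSet T x s) :=
    (isOpen_ball.preimage T.starProjection.continuous).measurableSet
  rw [hcyl, Measure.restrict_restrict hcm]
  have h1 : ∫ y in Skel.cylSet T x s ∩ A, INT.tilt P T y ^ 2 ∂ν
      ≤ ∫ y in Skel.cylSet T x s, INT.tilt P T y ^ 2 ∂ν :=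
    setIntegral_mono_set (INT.integrable_tilt_sq (INT.locStat_of_cylStat hC)).integrableOn
      (Eventually.of_forall fun y => sq_nonneg _) inter_subset_left.eventuallyLE
  have h2 : ∫ y in Skel.cylSet T x s, INT.tilt P T y ^ 2 ∂ν ≤ 2 * Skel.exc T ν P x s := by
    unfold Skel.exc
    rw [← integral_const_mul]
    refine setIntegral_mono_on_ae ?_ ?_ hcm ?_
    · exact (INT.integrable_tilt_sq (INT.locStat_of_cylStat hC)).integrableOn
    · have hint : Integrable (fun y => FV.tilt T (P y)) ν := by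
        have := TH.integrable_tilt hC
        simpa only [TH.tilt_agree] using this
      exact (hint.const_mul 2).integrableOn
    · filter_upwards [ae_norm_tilt_le hC] with y hy _ using hy
  gcongr
  exact h1.trans h2

/-- the smooth mass fraction of the restricted measure -/
lemma htot_restrict (hC : CylStat m T (ball z R) h ν P) (hx : x ∈ T) {s : ℝ} (hs : 0 < s)
    (hsub : ball x s ⊆ ball z R) :
    INT.htot m T (ν.restrict (T.starProjection ⁻¹' ball z R)) x s * s ^ m
      = ∫ y, prof (ODE.bsq T x y / s ^ 2) ∂ν := by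
  have hpx : T.starProjection x = x := Submodule.starProjection_eq_self_iff.2 hx
  unfold INT.htot
  rw [div_mul_cancel₀ _ (by positivity)]
  rw [setIntegral_eq_integral_of_forall_compl_eq_zero]
  · refine integral_congr_ae (Eventually.of_forall fun y => ?_)
    show cut (T.starProjection x) s (T.starProjection y) = _
    unfold cut ODE.bsq ODE.bx
    simp only [map_sub]
  · intro y hy
    refine cut_eq_zero hs ?_
    by_contra hcon
    refine hy (hsub ?_)
    rw [mem_ball, dist_eq_norm, ← hpx]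
    exact not_le.1 hcon

/-- sharp and smooth mass fractions -/
lemma sharp_htot (hm : 1 ≤ m) (hC : CylStat m T (ball z R) h ν P) (hx : x ∈ T) {s : ℝ} (hs : 0 < s)
    (hsub : ball x s ⊆ ball z R) {a κ : ℝ}
    (ha : |INT.htot m T (ν.restrict (T.starProjection ⁻¹' ball z R)) x s / cg m - a| ≤ κ)
    {δ : ℝ} (hexc : Skel.exc T ν P x s ≤ δ * s ^ m) :
    |ν.real (Skel.cylSet T x s) - a * Skel.om m * s ^ m| ≤
      (Skel.om m * κ + 12 / TCH.cm m * δ) * s ^ m := by
  have hcm := TCH.cm_pos m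
  have hom := om_pos m
  have hcg := cg_pos m
  have hsm : 0 < s ^ m := by positivity
  have h1 := TCH.sharp_smooth (hC.mono isOpen_ball hsub) hx hm (ρ := s) hs le_rfl
  rw [← htot_restrict hC hx hs hsub, ← TCH.exc_eq hx hs] at h1
  set H := INT.htot m T (ν.restrict (T.starProjection ⁻¹' ball z R)) x s with hH
  have h2 : |H - a * cg m| ≤ κ * cg m := by
    have h6 : H - a * cg m = (H / cg m - a) * cg m := by field_simp
    rw [h6, abs_mul, abs_of_pos hcg]
    gcongr
  have h3 : TCH.cm m * (ν.real (Skel.cylSet T x s) - a * Skel.om m * s ^ m) =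
      (TCH.cm m * ν.real (Skel.cylSet T x s) - H * s ^ m) + (H - a * cg m) * s ^ m := by
    rw [cg_eq]; ring
  have h4 : TCH.cm m * |ν.real (Skel.cylSet T x s) - a * Skel.om m * s ^ m| ≤
      12 * (δ * s ^ m) + κ * cg m * s ^ m := by
    have h5 : TCH.cm m * |ν.real (Skel.cylSet T x s) - a * Skel.om m * s ^ m| =
        |TCH.cm m * (ν.real (Skel.cylSet T x s) - a * Skel.om m * s ^ m)| := by
      rw [abs_mul, abs_of_pos hcm]
    rw [h5, h3]
    refine (abs_add_le _ _).trans (add_le_add (h1.trans (by gcongr)) ?_)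
    rw [abs_mul, abs_of_pos hsm]
    gcongr
  rw [cg_eq] at h4
  rw [← mul_le_mul_iff_right₀ hcm]
  refine h4.trans (le_of_eq ?_)
  field_simp
  ring

/-- `Skel.IntCyl` gives the data of INT-M -/
theorem exists_dat (hm : 1 ≤ m) (Q : ℕ) {δ' : ℝ} (hδ' : 0 < δ') :
    ∃ δ : ℝ, 0 < δ ∧ ∀ (T : Submodule ℝ E) (z : E) (R h : ℝ) (ν : Measure E)
      (P : E → E →L[ℝ] E), Skel.IntCyl m Q T z R h δ ν P → Skel.exc T ν P z R ≤ δ * R ^ m →
      ∀ {A : Set E}, (∀ᵐ y ∂ν, y ∈ Skel.cylSet T z R → y ∈ A) →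
      ∃ (S : Set E) (θ : E → ℕ), S ⊆ A ∧ S ⊆ Skel.cylSet T z R ∧
        (∀ y ∈ S, ∃ L : Submodule ℝ E, P y = L.starProjection ∧ IsApproxTangent m ν y (θ y) L) ∧
        INTM.Dat m Q δ' T (ball z R) h (ν.restrict (Skel.cylSet T z R)) P S θ
          (fun y => AREA.jac (proj T) (P y)) z (R / 4) := by
  have hcm := TCH.cm_pos m
  have hom := om_pos m
  have hcg := cg_pos m
  obtain ⟨δ₁, hδ₁, hsub⟩ := intCyl_sub (E := E) hm Q (δ' := Skel.om m / 6) (ρ₀ := 1 / 2)
    (by positivity) (by norm_num)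
  set K : ℝ := 12 * 2 ^ m / cg m with hK
  have hK0 : 0 < K := by positivity
  set δ : ℝ := min δ₁ (min (δ' / 2) (1 / (6 * K))) with hδ
  have hδ0 : 0 < δ := lt_min hδ₁ (lt_min (by positivity) (by positivity))
  have hδ1 : δ ≤ δ₁ := min_le_left _ _
  have hδ2 : δ ≤ δ' / 2 := (min_le_right _ _).trans (min_le_left _ _)
  have hδ3 : K * δ ≤ 1 / 6 := by
    have : δ ≤ 1 / (6 * K) := (min_le_right _ _).trans (min_le_right _ _)
    calc K * δ ≤ K * (1 / (6 * K)) := by gcongr
      _ = _ := by field_simp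
  refine ⟨δ, hδ0, ?_⟩
  intro T z R h ν P hI hexc A hA
  have hR := hI.pos
  have hz := hI.mem
  have hC := hI.cyl
  haveI := hC.fin
  have hRm : 0 < R ^ m := by positivity
  obtain ⟨S, θ, hSA, hSc, hSt, hInt⟩ := AREA.intCyl_of_skel hI hA
  refine ⟨S, θ, hSA, hSc, hSt, ?_⟩
  have hpz : T.starProjection z = z := Submodule.starProjection_eq_self_iff.2 hz
  refine ⟨hInt, by positivity, ?_, ?_, ?_⟩
  · rw [hpz, mul_div_cancel₀ R (by norm_num : (4:ℝ) ≠ 0)]
  · have hI' : Skel.IntCyl m Q T z R h δ₁ ν P :=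
      ⟨hI.cyl, hI.mem, hI.pos, hI.int, hI.mass.trans (by gcongr)⟩
    have h1 := (hsub T z R h ν P hI' (hexc.trans (by gcongr)) z hz (R / 2) (by linarith)
      (by rw [sub_self, norm_zero]; linarith)).mass
    have hball : ball z (R / 2) ⊆ ball z R := ball_subset_ball (by linarith)
    have h2 := TCH.sharp_smooth hC hz hm (ρ := R / 2) (by positivity) (by linarith)
    rw [← htot_restrict hC hz (by positivity) hball] at h2
    have e : 2 * (R / 4) = R / 2 := by ring
    rw [e]
    show |INT.htot m T (ν.restrict (T.starProjection ⁻¹' ball z R)) z (R / 2) / cg m - Q| ≤ 1 / 3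
    set H := INT.htot m T (ν.restrict (T.starProjection ⁻¹' ball z R)) z (R / 2) with hH
    have h3 : QP.Dex T P ν z (R / 2) ≤ δ * R ^ m := by
      refine (QP.Dex_mono hC (by linarith) (by linarith : R / 2 ≤ R)).trans ?_
      rw [← TCH.exc_eq hz hR]
      exact hexc
    have hrm : 0 < (R / 2) ^ m := by positivity
    have h4 : (H / cg m - Q) * (cg m * (R / 2) ^ m) =
        -(TCH.cm m * ν.real (Skel.cylSet T z (R / 2)) - H * (R / 2) ^ m) +
        TCH.cm m * (ν.real (Skel.cylSet T z (R / 2)) - Q * Skel.om m * (R / 2) ^ m) := by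
      have : (H / cg m - Q) * (cg m * (R / 2) ^ m) = H * (R / 2) ^ m - Q * cg m * (R / 2) ^ m := by
        field_simp
      rw [this, cg_eq]; ring
    have h5 : |H / cg m - Q| * (cg m * (R / 2) ^ m) ≤
        12 * (δ * R ^ m) + TCH.cm m * (Skel.om m / 6 * (R / 2) ^ m) := by
      have h6 : |H / cg m - Q| * (cg m * (R / 2) ^ m) =
          |(H / cg m - Q) * (cg m * (R / 2) ^ m)| := by
        rw [abs_mul, abs_of_pos (show 0 < cg m * (R / 2) ^ m by positivity)]
      rw [h6, h4]
      refine (abs_add_le _ _).trans (add_le_add ?_ ?_)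
      · rw [abs_neg]
        exact h2.trans (by gcongr)
      · rw [abs_mul, abs_of_pos hcm]
        gcongr
    have h7 : 12 * (δ * R ^ m) + TCH.cm m * (Skel.om m / 6 * (R / 2) ^ m) =
        (K * δ + 1 / 6) * (cg m * (R / 2) ^ m) := by
      rw [hK, cg_eq, div_pow]
      field_simp
    rw [h7] at h5
    have h8 := le_of_mul_le_mul_right h5 (by positivity)
    linarith
  · have h1 := int_exc_le hC (Skel.cylSet T z R)
      (isOpen_ball.preimage T.starProjection.continuous).measurableSet hz (s := 4 * (R / 4))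
      (by positivity)
    refine h1.trans ?_
    rw [mul_div_cancel₀ R (by norm_num : (4:ℝ) ≠ 0), div_le_iff₀ (by positivity)]
    calc 2 * Skel.exc T ν P z R ≤ 2 * (δ * R ^ m) := by gcongr
      _ ≤ 2 * (δ' / 2 * R ^ m) := by gcongr
      _ = δ' * R ^ m := by ring

/-- the sheet number persists down to every scale above which the excess is small; central form -/
theorem intCyl_down' (hm : 1 ≤ m) (Q : ℕ) {δ' : ℝ} (hδ' : 0 < δ') :
    ∃ δ : ℝ, 0 < δ ∧ ∀ (T : Submodule ℝ E) (z : E) (R h : ℝ) (ν : Measure E)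
      (P : E → E →L[ℝ] E), Skel.IntCyl m Q T z R h δ ν P → Skel.exc T ν P z R ≤ δ * R ^ m →
      ∀ x ∈ T, ‖x - z‖ < R / 4 → ∀ s, 0 < s → s ≤ R / 4 →
      (∀ s', s ≤ s' → s' ≤ R / 4 → Skel.exc T ν P x s' ≤ δ * s' ^ m) →
      Skel.IntCyl m Q T x s h δ' ν P := by
  have hcm := TCH.cm_pos m
  have hom := om_pos m
  obtain ⟨δ₁, C₁, hδ₁, hC₁, hmulti⟩ := INTM.multi (E := E) (thmN m) Q
    (ε := δ' / (2 * Skel.om m)) (by positivity)
  obtain ⟨δ₂, hδ₂, hdat⟩ := exists_dat (E := E) hm Q hδ₁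
  set K : ℝ := 12 / TCH.cm m with hK
  have hK0 : 0 < K := by positivity
  set δ : ℝ := min δ₂ (min (δ₁ / 2) (δ' / (2 * K))) with hδ
  have hδ0 : 0 < δ := lt_min hδ₂ (lt_min (by positivity) (by positivity))
  have h1 : δ ≤ δ₂ := min_le_left _ _
  have h2 : δ ≤ δ₁ / 2 := (min_le_right _ _).trans (min_le_left _ _)
  have h3 : K * δ ≤ δ' / 2 := by
    have : δ ≤ δ' / (2 * K) := (min_le_right _ _).trans (min_le_right _ _)
    calc K * δ ≤ K * (δ' / (2 * K)) := by gcongr
      _ = _ := by field_simp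
  refine ⟨δ, hδ0, ?_⟩
  intro T z R h ν P hI hexc x hx hxz s hs hsR hsmall
  have hR := hI.pos
  have hz := hI.mem
  have hC := hI.cyl
  haveI := hC.fin
  have hRm : 0 < R ^ m := by positivity
  have hpz : T.starProjection z = z := Submodule.starProjection_eq_self_iff.2 hz
  have hpx : T.starProjection x = x := Submodule.starProjection_eq_self_iff.2 hx
  have hI' : Skel.IntCyl m Q T z R h δ₂ ν P :=
    ⟨hI.cyl, hI.mem, hI.pos, hI.int, hI.mass.trans (by gcongr)⟩
  obtain ⟨S, θ, -, -, -, hD⟩ := hdat T z R h ν P hI' (hexc.trans (by gcongr)) (A := univ)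
    (Eventually.of_forall fun _ _ => mem_univ _)
  have hball : ball x s ⊆ ball z R := ball_subset_ball' (by rw [dist_eq_norm]; linarith)
  obtain ⟨h4, -⟩ := hmulti T _ h _ P S θ _ z (R / 4) hD x
    (by rw [hpx, hpz, mem_ball, dist_eq_norm]; exact hxz) s hs hsR (by
      intro s' h5 h6
      have hs' : 0 < s' := hs.trans_le h5
      refine (int_exc_le hC (Skel.cylSet T z R)
        (isOpen_ball.preimage T.starProjection.continuous).measurableSet hx hs').trans ?_
      rw [div_le_iff₀ (by positivity)]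
      calc 2 * Skel.exc T ν P x s' ≤ 2 * (δ * s' ^ m) := by gcongr; exact hsmall s' h5 h6
        _ ≤ 2 * (δ₁ / 2 * s' ^ m) := by gcongr
        _ = δ₁ * s' ^ m := by ring)
  have h7 := h4 s (by linarith) hsR
  have h8 := sharp_htot hm hC hx hs hball h7 (hsmall s le_rfl hsR)
  refine ((PreCyl.of_int hI).mono hx hs hball).toInt (h8.trans ?_)
  gcongr
  have h9 : Skel.om m * (δ' / (2 * Skel.om m)) = δ' / 2 := by field_simp
  rw [h9]
  linarith

/-- **(I1).** The sheet number persists down to every scale above which the excess is small. -/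
theorem intCyl_down (hm : 1 ≤ m) (Q : ℕ) {δ' ρ₀ : ℝ} (hδ' : 0 < δ') (hρ₀ : 0 < ρ₀) :
    ∃ δ : ℝ, 0 < δ ∧ ∀ (T : Submodule ℝ E) (z : E) (R h : ℝ) (ν : Measure E)
      (P : E → E →L[ℝ] E), Skel.IntCyl m Q T z R h δ ν P → Skel.exc T ν P z R ≤ δ * R ^ m →
      ∀ x ∈ T, ‖x - z‖ + ρ₀ * R ≤ R → ∀ s, 0 < s → ‖x - z‖ + s ≤ R →
      (∀ s', s ≤ s' → s' ≤ ρ₀ * R → Skel.exc T ν P x s' ≤ δ * s' ^ m) →
      Skel.IntCyl m Q T x s h δ' ν P := by
  obtain ⟨δ₁, hδ₁, hdown⟩ := intCyl_down' (E := E) hm Q hδ'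
  obtain ⟨δ₂, hδ₂, hsub⟩ := intCyl_sub (E := E) hm Q (ρ₀ := ρ₀ / 4) hδ' (by positivity)
  obtain ⟨δ₃, hδ₃, hsub'⟩ := intCyl_sub (E := E) hm Q (ρ₀ := ρ₀ / 4) hδ₁ (by positivity)
  set δ : ℝ := min (min δ₂ δ₃) (min δ₁ (δ₁ * ρ₀ ^ m)) with hδ
  have hδ0 : 0 < δ := lt_min (lt_min hδ₂ hδ₃) (lt_min hδ₁ (by positivity))
  have h2 : δ ≤ δ₂ := (min_le_left _ _).trans (min_le_left _ _)
  have h3 : δ ≤ δ₃ := (min_le_left _ _).trans (min_le_right _ _)
  have h1 : δ ≤ δ₁ := (min_le_right _ _).trans (min_le_left _ _)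
  have h4 : δ ≤ δ₁ * ρ₀ ^ m := (min_le_right _ _).trans (min_le_right _ _)
  refine ⟨δ, hδ0, ?_⟩
  intro T z R h ν P hI hexc x hx hxz s hs hsR hsmall
  have hR := hI.pos
  have hC := hI.cyl
  haveI := hC.fin
  have hRm : 0 < R ^ m := by positivity
  rcases le_total (ρ₀ / 4 * R) s with hc | hc
  · exact hsub T z R h ν P ⟨hI.cyl, hI.mem, hI.pos, hI.int, hI.mass.trans (by gcongr)⟩
      (hexc.trans (by gcongr)) x hx s hc hsR
  · have hρR : 0 < ρ₀ * R := by positivity
    have h5 : Skel.IntCyl m Q T x (ρ₀ * R) h δ₁ ν P :=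
      hsub' T z R h ν P ⟨hI.cyl, hI.mem, hI.pos, hI.int, hI.mass.trans (by gcongr)⟩
        (hexc.trans (by gcongr)) x hx (ρ₀ * R) (by nlinarith) hxz
    refine hdown T x (ρ₀ * R) h ν P h5 ?_ x hx (by rw [sub_self, norm_zero]; positivity) s hs
      (by linarith) fun s' h6 h7 => ?_
    · have h8 : Skel.exc T ν P x (ρ₀ * R) ≤ Skel.exc T ν P z R := by
        have hint : Integrable (fun y => FV.tilt T (P y)) ν := by
          have := TH.integrable_tilt hC
          simpa only [TH.tilt_agree] using this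
        unfold Skel.exc
        refine setIntegral_mono_set hint.integrableOn (ae_restrict_of_ae ?_) ?_
        · filter_upwards [ODE.CylStat.tilt_nonneg hC] with y hy
          rw [TH.tilt_agree]; exact hy
        · refine (preimage_mono ?_ : Skel.cylSet T x (ρ₀ * R) ⊆ Skel.cylSet T z R).eventuallyLE
          exact ball_subset_ball' (by rw [dist_eq_norm]; linarith)
      refine (h8.trans hexc).trans ?_
      rw [mul_pow]
      calc δ * R ^ m ≤ δ₁ * ρ₀ ^ m * R ^ m := by gcongr
        _ = _ := by ring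
    · have hs' : 0 < s' := hs.trans_le h6
      exact (hsmall s' h6 (by linarith)).trans (by gcongr)

end Vale.Agent.P214.B4
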