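import Vale.Agent.P214.B4.Piece
import Vale.Agent.P214.TCH.Path
import Vale.Agent.P214.INTM.M1
import Vale.Agent.P214.INT.NearMain
import Vale.Agent.P214.AREA.Conv
import Vale.Agent.P214.MU.Theta

/-!
# P214, block B4 (D2): near integrality of the sharp masses, and the pieces of a split
-/

open Set Filter Topology MeasureTheory Metric
open scoped RealInnerProductSpace ENNReal

set_option linter.all false

namespace Vale.Agent.P214.B4

open Vale.Agent.P214.FV

lemma om_eq (m : ℕ) : Skel.om m = MU.om m := rfl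

lemma om_pos (m : ℕ) : 0 < Skel.om m := MU.om_pos m

lemma cphi_prof (m : ℕ) : MU.cphi m prof = TCH.cm m := by
  unfold MU.cphi
  have h1 : ∀ s ∈ Ioo (0:ℝ) 1, (-deriv prof s) * (√s) ^ m =
      2 * s ^ ((m:ℝ) / 2) - 2 * s ^ ((m:ℝ) / 2 + 1) := by
    intro s hs
    have e1 : deriv prof s = -(2 * (1 - s)) := by
      have h2 : prof =ᶠ[𝓝 s] fun s => (1 - s) ^ 2 := by
        filter_upwards [Iio_mem_nhds hs.2] with u hu
        unfold prof
        rw [max_eq_left (by linarith [mem_Iio.1 hu])]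
      rw [h2.deriv_eq]
      have h3 : HasDerivAt (fun s : ℝ => (1 - s) ^ 2) (2 * (1 - s) ^ 1 * (0 - 1)) s :=
        ((hasDerivAt_const s (1:ℝ)).sub (hasDerivAt_id s)).pow 2
      rw [h3.deriv]
      ring
    have e2 : (√s) ^ m = s ^ ((m:ℝ) / 2) := by
      rw [Real.sqrt_eq_rpow, ← Real.rpow_natCast, ← Real.rpow_mul hs.1.le]
      congr 1
      ring
    rw [e1, e2, Real.rpow_add hs.1, Real.rpow_one]
    ring
  rw [integral_Ioc_eq_integral_Ioo, setIntegral_congr_fun measurableSet_Ioo h1,
    ← integral_Ioc_eq_integral_Ioo, ← intervalIntegral.integral_of_le zero_le_one]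
  have hi : ∀ r : ℝ, 0 ≤ r → IntervalIntegrable (fun s : ℝ => s ^ r) volume 0 1 := by
    intro r hr
    exact intervalIntegral.intervalIntegrable_rpow (Or.inl hr)
  rw [intervalIntegral.integral_sub ((hi _ (by positivity)).const_mul 2)
    ((hi _ (by positivity)).const_mul 2), intervalIntegral.integral_const_mul,
    intervalIntegral.integral_const_mul, integral_rpow (Or.inl (by
      have : (0:ℝ) ≤ (m:ℝ) / 2 := by positivity
      linarith)), integral_rpow (Or.inl (by
      have : (0:ℝ) ≤ (m:ℝ) / 2 := by positivity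
      linarith))]
  have h4 : (0:ℝ) < (m:ℝ) / 2 + 1 := by positivity
  have h5 : (0:ℝ) < (m:ℝ) / 2 + 1 + 1 := by positivity
  rw [Real.one_rpow, Real.one_rpow, Real.zero_rpow h4.ne', Real.zero_rpow h5.ne']
  unfold TCH.cm
  field_simp
  ring

/-- the constant of the smooth cut-off -/
lemma cg_eq (m : ℕ) : cg m = TCH.cm m * Skel.om m := by
  rw [MU.cg_eq, cphi_prof, mul_comm]; rfl

variable {E : Type*} [NormedAddCommGroup E] [InnerProductSpace ℝ E] [FiniteDimensional ℝ E]
  [MeasurableSpace E] [BorelSpace E]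

variable {m Q : ℕ} {T : Submodule ℝ E} {x z : E} {R t h δ : ℝ} {ν : Measure E}
  {P : E → E →L[ℝ] E}

/-- the squared norm tilt is at most twice the trace tilt -/
lemma ae_norm_tilt_le (hC : CylStat m T (ball z R) h ν P) :
    ∀ᵐ y ∂ν, INT.tilt P T y ^ 2 ≤ 2 * FV.tilt T (P y) := by
  filter_upwards [hC.proj] with y hy
  obtain ⟨S, hS, hP⟩ := hy
  have hS' : Module.finrank ℝ S = Module.finrank ℝ T := by rw [hS, hC.dimT]
  have h0 : 0 ≤ FV.tilt T (P y) := by rw [hP]; exact FV.tilt_nonneg S T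
  have h1 : INT.tilt P T y ≤ √(2 * FV.tilt T (P y)) := by
    unfold INT.tilt
    refine ContinuousLinearMap.opNorm_le_bound _ (Real.sqrt_nonneg _) fun v => ?_
    have h2 := FV.norm_sq_sub_le S T hS' v
    rw [hP]
    have h3 : ‖(S.starProjection - T.starProjection) v‖ ^ 2 ≤
        (√(2 * FV.tilt T S.starProjection) * ‖v‖) ^ 2 := by
      rw [mul_pow, Real.sq_sqrt (by rw [hP] at h0; positivity)]
      exact h2
    exact le_of_sq_le_sq h3 (by positivity)
  calc INT.tilt P T y ^ 2 ≤ (√(2 * FV.tilt T (P y))) ^ 2 := by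
        have : 0 ≤ INT.tilt P T y := norm_nonneg _
        gcongr
    _ = _ := Real.sq_sqrt (by positivity)

/-- **near integrality of the sharp masses** of all subcylinders at comparable scales -/
theorem PreCyl.near (hm : 1 ≤ m) {M δ' ρ₀ : ℝ} (hM : 0 < M) (hδ' : 0 < δ') (hρ₀ : 0 < ρ₀) :
    ∃ δ : ℝ, 0 < δ ∧ ∀ (T : Submodule ℝ E) (z : E) (R h : ℝ) (ν : Measure E)
      (P : E → E →L[ℝ] E), PreCyl m T z R h ν P →
      ν.real (Skel.cylSet T z R) ≤ M * R ^ m → Skel.exc T ν P z R ≤ δ * R ^ m →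
      ∃ q : ℕ, ∀ z' ∈ T, ∀ r, ρ₀ * R ≤ r → ‖z' - z‖ + r ≤ R →
        |ν.real (Skel.cylSet T z' r) - q * Skel.om m * r ^ m| ≤ δ' * r ^ m := by
  have hcm := TCH.cm_pos m
  have hom := om_pos m
  have hcg := cg_pos m
  set ε : ℝ := δ' / (4 * Skel.om m) with hε
  have hε0 : 0 < ε := by positivity
  obtain ⟨δN, hδN, hN⟩ := INT.near_integer' (E := E) m (M := M * 2 ^ m) (by positivity) hε0
  set K : ℝ := (12 * 2 ^ m + 24 / ρ₀ ^ (m + 1) + 24 * 2 ^ (m + 1)) / TCH.cm m with hK
  have hK0 : 0 < K := by positivity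
  set δ : ℝ := min (δN / 2) (δ' / (2 * K)) with hδ
  have hδ0 : 0 < δ := lt_min (by positivity) (by positivity)
  refine ⟨δ, hδ0, ?_⟩
  intro T z R h ν P hI hmass hexc
  have hR := hI.pos
  have hz := hI.mem
  have hC := hI.cyl
  haveI := hC.fin
  have hE0 : 0 ≤ Skel.exc T ν P z R := by
    rw [TCH.exc_eq hz hR]; exact QP.Dex_nonneg hC R
  -- the bridge
  obtain ⟨S, θ, -, -, -, hInt⟩ := AREA.intCyl_of_cylStat hC hI.int
    (A := univ) (Eventually.of_forall fun _ _ => mem_univ _)
  set G' : Set E := T.starProjection ⁻¹' (ball z R) with hG'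
  have hG'm : MeasurableSet G' := (isOpen_ball.preimage T.starProjection.continuous).measurableSet
  have hpz : T.starProjection z = z := Submodule.starProjection_eq_self_iff.2 hz
  have hcyl : INT.cyl T z (2 * (R / 2)) = G' := by
    unfold INT.cyl
    rw [hpz, hG']
    congr 2
    ring
  have hcs : Skel.cylSet T z R = G' := rfl
  obtain ⟨q, hq⟩ := hN T (ball z R) h (ν.restrict G') P S θ _ z (R / 2) hInt hz (by positivity)
    (by rw [hcyl]) (by
      rw [hcyl, measureReal_restrict_apply_self, ← hcs]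
      calc ν.real (Skel.cylSet T z R) ≤ M * R ^ m := hmass
        _ = M * 2 ^ m * (R / 2) ^ m := by rw [div_pow]; field_simp) (by
      unfold INT.exc
      rw [hcyl, Measure.restrict_restrict hG'm, inter_self, div_le_iff₀ (by positivity)]
      have h1 : ∫ y in G', INT.tilt P T y ^ 2 ∂ν ≤ ∫ y in G', 2 * FV.tilt T (P y) ∂ν := by
        refine setIntegral_mono_on_ae ?_ ?_ hG'm ?_
        · exact (INT.integrable_tilt_sq (INT.locStat_of_cylStat hC)).integrableOn
        · have hint : Integrable (fun y => FV.tilt T (P y)) ν := by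
            have := TH.integrable_tilt hC
            simpa only [TH.tilt_agree] using this
          exact (hint.const_mul 2).integrableOn
        · filter_upwards [ae_norm_tilt_le hC] with y hy _ using hy
      refine h1.trans ?_
      rw [integral_const_mul]
      have h2 : ∫ y in G', FV.tilt T (P y) ∂ν = Skel.exc T ν P z R := rfl
      rw [h2]
      have h3 : δ ≤ δN / 2 := min_le_left _ _
      calc 2 * Skel.exc T ν P z R ≤ 2 * (δ * R ^ m) := by gcongr
        _ ≤ 2 * (δN / 2 * R ^ m) := by gcongr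
        _ = δN * (2 * (R / 2)) ^ m := by rw [mul_div_cancel₀ R (two_ne_zero)]; ring)
  refine ⟨q, fun z' hz' r hr hsub => ?_⟩
  have hr0 : 0 < r := lt_of_lt_of_le (by positivity) hr
  -- the smooth mass of the restricted measure
  have hht : INT.htot m T (ν.restrict G') z (R / 2) * (R / 2) ^ m
      = ∫ y, prof (ODE.bsq T z y / (R / 2) ^ 2) ∂ν := by
    unfold INT.htot
    rw [div_mul_cancel₀ _ (by positivity)]
    rw [setIntegral_eq_integral_of_forall_compl_eq_zero]
    · refine integral_congr_ae (Eventually.of_forall fun y => ?_)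
      show cut (T.starProjection z) (R / 2) (T.starProjection y) = _
      unfold cut ODE.bsq ODE.bx
      simp only [map_sub]
    · intro y hy
      refine cut_eq_zero (by positivity) ?_
      rw [hG', mem_preimage, mem_ball, dist_eq_norm, not_lt] at hy
      rw [hpz]
      linarith
  have h1 := TCH.sharp_smooth hC hz hm (ρ := R / 2) (by positivity) (by linarith)
  rw [← hht] at h1
  have h2 := TCH.mass_sub hC hz hm hz' hr0 hsub
  have h3 := TCH.mass_sub hC hz hm hz (r := R / 2) (by positivity) (by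
    rw [sub_self, norm_zero]; linarith)
  have hD : QP.Dex T P ν z (R / 2) ≤ Skel.exc T ν P z R := by
    rw [TCH.exc_eq hz hR]
    exact QP.Dex_mono hC (by linarith) (by linarith)
  -- divide
  set A : ℝ := ν.real (Skel.cylSet T z' r) / r ^ m with hA
  set B : ℝ := ν.real (Skel.cylSet T z R) / R ^ m with hB
  set C : ℝ := ν.real (Skel.cylSet T z (R / 2)) / (R / 2) ^ m with hCc
  set H : ℝ := INT.htot m T (ν.restrict G') z (R / 2) with hH
  have e1 : |A - B| ≤ 24 / ρ₀ ^ (m + 1) / TCH.cm m * δ := by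
    refine h2.trans ?_
    have h4 : (ρ₀ * R) ^ (m + 1) ≤ r ^ (m + 1) := by gcongr
    calc 24 * R / (TCH.cm m * r ^ (m + 1)) * Skel.exc T ν P z R
        ≤ 24 * R / (TCH.cm m * (ρ₀ * R) ^ (m + 1)) * (δ * R ^ m) := by gcongr
      _ = _ := by
        rw [mul_pow, pow_succ R]
        field_simp
  have e2 : |C - B| ≤ 24 * 2 ^ (m + 1) / TCH.cm m * δ := by
    refine h3.trans ?_
    calc 24 * R / (TCH.cm m * (R / 2) ^ (m + 1)) * Skel.exc T ν P z R
        ≤ 24 * R / (TCH.cm m * (R / 2) ^ (m + 1)) * (δ * R ^ m) := by gcongr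
      _ = _ := by
        rw [div_pow, pow_succ R]
        field_simp
  have e3 : |TCH.cm m * C - H| ≤ 12 * 2 ^ m * δ := by
    have h5 : TCH.cm m * C - H = (TCH.cm m * ν.real (Skel.cylSet T z (R / 2)) - H * (R / 2) ^ m)
        / (R / 2) ^ m := by
      rw [hCc]; field_simp
    rw [h5, abs_div, abs_of_pos (show (0:ℝ) < (R / 2) ^ m by positivity), div_le_iff₀ (by positivity)]
    refine h1.trans ?_
    calc 12 * QP.Dex T P ν z (R / 2) ≤ 12 * (δ * R ^ m) := by
          gcongr
          exact hD.trans hexc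
      _ = 12 * 2 ^ m * δ * (R / 2) ^ m := by rw [div_pow]; field_simp
  have e4 : |H - q * cg m| ≤ ε * cg m := by
    have h6 : H - q * cg m = (H / cg m - q) * cg m := by field_simp
    rw [h6, abs_mul, abs_of_pos hcg]
    gcongr
  have e5 : |C - q * Skel.om m| ≤ ε * Skel.om m + 12 * 2 ^ m / TCH.cm m * δ := by
    have h7 : TCH.cm m * (C - q * Skel.om m) = (TCH.cm m * C - H) + (H - q * cg m) := by
      rw [cg_eq]; ring
    have h8 : TCH.cm m * |C - q * Skel.om m| ≤ 12 * 2 ^ m * δ + ε * cg m := by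
      have h8' : TCH.cm m * |C - q * Skel.om m| = |TCH.cm m * (C - q * Skel.om m)| := by
        rw [abs_mul, abs_of_pos hcm]
      rw [h8', h7]
      exact (abs_add_le _ _).trans (add_le_add e3 e4)
    rw [cg_eq] at h8
    rw [← mul_le_mul_iff_right₀ hcm]
    refine h8.trans (le_of_eq ?_)
    field_simp
    ring
  have e6 : |A - q * Skel.om m| ≤ δ' := by
    have h9 : A - q * Skel.om m = (A - B) - (C - B) + (C - q * Skel.om m) := by ring
    rw [h9]
    refine (abs_add_le _ _).trans ?_
    refine (add_le_add (abs_sub _ _) le_rfl).trans ?_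
    have h10 : K * δ ≤ δ' / 2 := by
      have : δ ≤ δ' / (2 * K) := min_le_right _ _
      calc K * δ ≤ K * (δ' / (2 * K)) := by gcongr
        _ = _ := by field_simp
    have h11 : ε * Skel.om m = δ' / 4 := by rw [hε]; field_simp
    have h12 : K * δ = 24 / ρ₀ ^ (m + 1) / TCH.cm m * δ + 24 * 2 ^ (m + 1) / TCH.cm m * δ
        + 12 * 2 ^ m / TCH.cm m * δ := by
      rw [hK]; ring
    linarith
  have h13 : ν.real (Skel.cylSet T z' r) - q * Skel.om m * r ^ m = (A - q * Skel.om m) * r ^ m := by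
    rw [hA]; field_simp
  rw [h13, abs_mul, abs_of_pos (show (0:ℝ) < r ^ m by positivity)]
  gcongr

end Vale.Agent.P214.B4
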