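import Vale.Agent.P214.B4.Two
import Vale.Agent.P214.BRG.Int
import Vale.Agent.P214.Skel.Defs

/-!
# P214, block B4: the two pieces of a split

`PreCyl` = `Skel.IntCyl` without the mass condition.  If the heights over `ball x t` have a gap, the
parts of the measure below and above the gap are again `PreCyl`.
-/

open Set Filter Topology MeasureTheory Metric
open scoped RealInnerProductSpace ENNReal

set_option linter.all false

namespace Vale.Agent.P214.B4

open Vale.Agent.P214.FV Vale.Agent.P214.ODE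

variable {E : Type*} [NormedAddCommGroup E] [InnerProductSpace ℝ E] [FiniteDimensional ℝ E]
  [MeasurableSpace E] [BorelSpace E]

/-- `Skel.IntCyl` without the mass condition -/
structure PreCyl (m : ℕ) (T : Submodule ℝ E) (z : E) (R h : ℝ) (ν : Measure E)
    (P : E → E →L[ℝ] E) : Prop where
  cyl : FV.CylStat m T (ball z R) h ν P
  mem : z ∈ T
  pos : 0 < R
  int : ∀ᵐ y ∂ν, y ∈ Skel.cylSet T z R → ∃ q : ℕ, 1 ≤ q ∧ ∃ S : Submodule ℝ E,
    P y = S.starProjection ∧ IsApproxTangent m ν y q S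

variable {m Q : ℕ} {T : Submodule ℝ E} {x z : E} {R t h δ : ℝ} {ν : Measure E}
  {P : E → E →L[ℝ] E}

lemma PreCyl.of_int (hI : Skel.IntCyl m Q T z R h δ ν P) : PreCyl m T z R h ν P :=
  ⟨hI.cyl, hI.mem, hI.pos, hI.int⟩

lemma PreCyl.toInt (hI : PreCyl m T z R h ν P)
    (hm : |ν.real (Skel.cylSet T z R) - Q * Skel.om m * R ^ m| ≤ δ * R ^ m) :
    Skel.IntCyl m Q T z R h δ ν P :=
  ⟨hI.cyl, hI.mem, hI.pos, hI.int, hm⟩

omit [MeasurableSpace E] [BorelSpace E] in
lemma cylSet_eq (hx : x ∈ T) (t : ℝ) : Skel.cylSet T x t = {y | ‖T.starProjection (y - x)‖ < t} := by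
  ext y
  show T.starProjection y ∈ ball x t ↔ _
  rw [mem_ball, dist_eq_norm, mem_setOf_eq, map_sub, Submodule.starProjection_eq_self_iff.2 hx]

lemma cylSet_eq_cy (hx : x ∈ T) (t : ℝ) : Skel.cylSet T x t = cy T x t := cylSet_eq hx t

omit [MeasurableSpace E] [BorelSpace E] in
lemma cylSet_mono (h : ball x t ⊆ ball z R) : Skel.cylSet T x t ⊆ Skel.cylSet T z R :=
  fun _ hy => h hy

/-- smaller balls -/
lemma PreCyl.mono (hI : PreCyl m T z R h ν P) (hx : x ∈ T) (ht : 0 < t)
    (hsub : ball x t ⊆ ball z R) : PreCyl m T x t h ν P := by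
  refine ⟨hI.cyl.mono isOpen_ball hsub, hx, ht, ?_⟩
  filter_upwards [hI.int] with y hy hyt using hy (cylSet_mono hsub hyt)

/-- approximate tangent planes are local, both directions -/
lemma isApproxTangent_of_restrict {μ : Measure E} {y : E} {W : Set E} (hW : W ∈ 𝓝 y) {q : ℕ}
    {S : Submodule ℝ E} (h : IsApproxTangent m (μ.restrict W) y q S) :
    IsApproxTangent m μ y q S := by
  refine ⟨h.1, fun f hf hfs => ?_⟩
  refine (h.2 f hf hfs).congr' ?_
  obtain ⟨K, hK⟩ := hfs.isBounded.subset_closedBall (0 : E)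
  obtain ⟨ρ, hρ, hρW⟩ := Metric.mem_nhds_iff.1 hW
  have hc : Tendsto (fun r : ℝ => |K| * r) (𝓝[>] 0) (𝓝 0) := by
    have : Continuous fun r : ℝ => |K| * r := by fun_prop
    have h2 := this.tendsto 0
    rw [mul_zero] at h2
    exact h2.mono_left nhdsWithin_le_nhds
  filter_upwards [hc.eventually (gt_mem_nhds hρ), self_mem_nhdsWithin] with r hr hr0
  congr 1
  refine setIntegral_eq_integral_of_forall_compl_eq_zero fun z hz => ?_
  by_contra hne
  have h3 : r⁻¹ • (z - y) ∈ closedBall (0 : E) K := hK (subset_tsupport _ hne)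
  have hr0' : 0 < r := hr0
  rw [mem_closedBall, dist_zero_right, norm_smul, norm_inv, Real.norm_of_nonneg hr0'.le,
    ← div_eq_inv_mul, div_le_iff₀ hr0'] at h3
  refine hz (hρW (mem_ball.2 ?_))
  rw [dist_eq_norm z y]
  have h5 : K * r ≤ |K| * r := by gcongr; exact le_abs_self K
  linarith

/-- if `A` is, up to a null set, a neighbourhood of `y`, the approximate tangent plane of the
restriction to `A` is the same -/
lemma isApproxTangent_piece {μ : Measure E} {y : E} {A N : Set E} (hN : IsOpen N) (hy : y ∈ N)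
    (hA : MeasurableSet A) (hnull : μ (N \ A) = 0) {q : ℕ}
    {S : Submodule ℝ E} (h : IsApproxTangent m μ y q S) :
    IsApproxTangent m (μ.restrict A) y q S := by
  refine isApproxTangent_of_restrict (hN.mem_nhds hy) ?_
  have h1 := AREA.isApproxTangent_restrict' (hN.mem_nhds hy) h
  have h2 : (μ.restrict A).restrict N = μ.restrict N := by
    rw [Measure.restrict_restrict hN.measurableSet]
    have h3 : (N ∩ A : Set E) =ᵐ[μ] N := by
      refine Filter.EventuallyLE.antisymm (inter_subset_left).eventuallyLE ?_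
      rw [ae_le_set]
      refine measure_mono_null ?_ hnull
      rintro z ⟨h1, h2⟩
      exact ⟨h1, fun h3 => h2 ⟨h1, h3⟩⟩
    exact Measure.restrict_congr_set h3
  rw [h2]
  exact h1

/-- a general piece: `A` separated from its complement by a cut-off function -/
theorem PreCyl.piece (hI : PreCyl m T z R h ν P) {A : Set E} (hA : MeasurableSet A) {χ : E → ℝ}
    (hχ : ContDiff ℝ 1 χ)
    (h1 : ∀ᵐ y ∂ν, T.starProjection y ∈ ball z R →
      (y ∈ A → χ =ᶠ[𝓝 y] fun _ => 1) ∧ (y ∉ A → χ =ᶠ[𝓝 y] fun _ => 0)) :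
    PreCyl m T z R h (ν.restrict A) P := by
  refine ⟨CylStat.restrict_of_cut hI.cyl isOpen_ball (subset_refl _) hA hχ h1, hI.mem, hI.pos, ?_⟩
  rw [ae_restrict_iff' hA]
  filter_upwards [hI.int, h1] with y hy hy1 hyA hyz
  obtain ⟨q, hq, S, hPS, htan⟩ := hy hyz
  refine ⟨q, hq, S, hPS, ?_⟩
  have h2 := (hy1 hyz).1 hyA
  -- the neighbourhood where `χ = 1`
  obtain ⟨N, hN1, hNo, hyN⟩ := _root_.mem_nhds_iff.1 h2
  set N' : Set E := N ∩ T.starProjection ⁻¹' (ball z R) with hN'
  have hN'o : IsOpen N' := hNo.inter (isOpen_ball.preimage T.starProjection.continuous)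
  refine isApproxTangent_piece hN'o ⟨hyN, hyz⟩ hA ?_ htan
  refine measure_mono_null ?_ (ae_iff.1 h1)
  rintro w ⟨⟨hw1, hw2⟩, hwA⟩ hcon
  have h3 := (hcon hw2).2 hwA
  have h4 : χ w = 0 := h3.eq_of_nhds
  have h5 : χ w = 1 := hN1 hw1
  rw [h4] at h5
  exact zero_ne_one h5

/-- the part below the gap -/
def lo (T : Submodule ℝ E) (b : E) (r : ℝ) : Set E := {y | ‖hgt T b y‖ ≤ r}

omit [BorelSpace E] in
lemma isClosed_lo (T : Submodule ℝ E) (b : E) (r : ℝ) : IsClosed (lo T b r) :=
  isClosed_le (contDiff_hgt (n := 0) T b).continuous.norm continuous_const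

lemma measurableSet_lo (T : Submodule ℝ E) (b : E) (r : ℝ) : MeasurableSet (lo T b r) :=
  (isClosed_lo T b r).measurableSet

/-- the separating function -/
lemma exists_cutoff (b : E) {r w : ℝ} (hr : 0 ≤ r) (hw : 0 < w) :
    ∃ χ : E → ℝ, ContDiff ℝ 1 χ ∧ (∀ y, ‖hgt T b y‖ ≤ r → χ =ᶠ[𝓝 y] fun _ => 1) ∧
      ∀ y, r + w ≤ ‖hgt T b y‖ → χ =ᶠ[𝓝 y] fun _ => 0 := by
  set c : ContDiffBump b := ⟨r + w / 3, r + 2 * w / 3, by positivity, by linarith⟩ with hc
  have hcont : Continuous fun y : E => ‖hgt T b y‖ := (contDiff_hgt (n := 0) T b).continuous.norm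
  refine ⟨fun y => c (co T y), (c.contDiff (n := 1)).comp (co T).contDiff, fun y hy => ?_,
    fun y hy => ?_⟩
  · have h2 : ‖hgt T b y‖ < r + w / 3 := by linarith
    filter_upwards [(isOpen_lt hcont continuous_const).mem_nhds h2] with z hz
    refine c.one_of_mem_closedBall ?_
    rw [mem_closedBall, dist_eq_norm]
    exact hz.le
  · have h2 : r + 2 * w / 3 < ‖hgt T b y‖ := by linarith
    filter_upwards [(isOpen_lt continuous_const hcont).mem_nhds h2] with z hz
    refine c.zero_of_le_dist ?_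
    rw [dist_eq_norm]
    exact hz.le

/-- **the two pieces** -/
theorem PreCyl.split (hI : PreCyl m T z R h ν P) {b : E} {r w : ℝ} (hcut : Cut T ν z R b r w) :
    PreCyl m T z R h (ν.restrict (lo T b r)) P ∧ PreCyl m T z R h (ν.restrict (lo T b r)ᶜ) P := by
  obtain ⟨χ, hχ, hχ1, hχ0⟩ := exists_cutoff (T := T) b hcut.1 hcut.2.1
  have hcut' : ∀ᵐ y ∂ν, T.starProjection y ∈ ball z R → ‖hgt T b y‖ ≤ r ∨ r + w ≤ ‖hgt T b y‖ := by
    filter_upwards [hcut.2.2] with y hy hyz
    refine hy ?_
    rw [← cylSet_eq_cy hI.mem]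
    exact hyz
  constructor
  · refine hI.piece (measurableSet_lo T b r) hχ ?_
    filter_upwards [hcut'] with y hy hyz
    refine ⟨fun hyA => hχ1 y hyA, fun hyA => ?_⟩
    rcases hy hyz with h1 | h1
    · exact absurd h1 hyA
    · exact hχ0 y h1
  · refine hI.piece (measurableSet_lo T b r).compl (χ := fun y => 1 - χ y)
      (contDiff_const.sub hχ) ?_
    filter_upwards [hcut'] with y hy hyz
    refine ⟨fun hyA => ?_, fun hyA => ?_⟩
    · rcases hy hyz with h1 | h1
      · exact absurd h1 hyA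
      · filter_upwards [hχ0 y h1] with z hz
        rw [hz, sub_zero]
    · have h1 : y ∈ lo T b r := not_not.1 hyA
      filter_upwards [hχ1 y h1] with z hz
      rw [hz, sub_self]

/-- the masses of the pieces add up -/
lemma real_split (T : Submodule ℝ E) (b : E) (r : ℝ) [IsFiniteMeasure ν] (B : Set E) :
    (ν.restrict (lo T b r)).real B + (ν.restrict (lo T b r)ᶜ).real B = ν.real B := by
  have h1 := measurableSet_lo T b r
  rw [measureReal_restrict_apply' h1, measureReal_restrict_apply' h1.compl]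
  exact measureReal_inter_add_sdiff h1

/-- the excesses of the pieces add up -/
lemma exc_split (hC : CylStat m T (ball z R) h ν P) (b : E) (r : ℝ) (x : E) (s : ℝ) :
    Skel.exc T (ν.restrict (lo T b r)) P x s + Skel.exc T (ν.restrict (lo T b r)ᶜ) P x s
      = Skel.exc T ν P x s := by
  haveI := hC.fin
  have h1 := measurableSet_lo T b r
  have hcyl : MeasurableSet (Skel.cylSet T x s) :=
    (isOpen_ball.preimage T.starProjection.continuous).measurableSet
  unfold Skel.exc
  rw [Measure.restrict_restrict hcyl, Measure.restrict_restrict hcyl]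
  have hint : Integrable (fun y => FV.tilt T (P y)) ν := by
    have := TH.integrable_tilt hC
    simpa only [TH.tilt_agree] using this
  rw [← setIntegral_union (disjoint_compl_right.mono inter_subset_right inter_subset_right)
    (hcyl.inter h1.compl) hint.integrableOn hint.integrableOn, inter_union_compl]

lemma exc_piece_le (hC : CylStat m T (ball z R) h ν P) (A : Set E) (hA : MeasurableSet A) (x : E)
    (s : ℝ) : Skel.exc T (ν.restrict A) P x s ≤ Skel.exc T ν P x s := by
  haveI := hC.fin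
  have hcyl : MeasurableSet (Skel.cylSet T x s) :=
    (isOpen_ball.preimage T.starProjection.continuous).measurableSet
  unfold Skel.exc
  rw [Measure.restrict_restrict hcyl]
  have hint : Integrable (fun y => FV.tilt T (P y)) ν := by
    have := TH.integrable_tilt hC
    simpa only [TH.tilt_agree] using this
  refine setIntegral_mono_set hint.integrableOn (ae_restrict_of_ae ?_)
    (inter_subset_left).eventuallyLE
  filter_upwards [ODE.CylStat.tilt_nonneg hC] with y hy
  rw [TH.tilt_agree]; exact hy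

/-- the functional is additive over the pieces -/
lemma ffl_split (hC : CylStat m T (ball z R) h ν P) (b : E) (r : ℝ) {φ : E → ℝ} {Q₁ Q₂ : ℕ}
    (hφ : Integrable (fun y => φ (T.starProjection y) * (1 - FV.tilt T (P y) / 2)) ν) :
    Skel.Ffl m Q₁ T (ν.restrict (lo T b r)) P φ + Skel.Ffl m Q₂ T (ν.restrict (lo T b r)ᶜ) P φ
      = Skel.Ffl m (Q₁ + Q₂) T ν P φ := by
  have h1 := measurableSet_lo T b r
  unfold Skel.Ffl
  rw [← integral_add_compl h1 hφ]
  push_cast
  ring

end Vale.Agent.P214.B4
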