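import Vale.Agent.P214.B4.NearQ
import Vale.Agent.P214.R2.Cells

/-!
# P214, block B4 (D2): the pieces of a split are integral cylinders
-/

open Set Filter Topology MeasureTheory Metric
open scoped RealInnerProductSpace ENNReal

set_option linter.all false

namespace Vale.Agent.P214.B4

open Vale.Agent.P214.FV

variable {E : Type*} [NormedAddCommGroup E] [InnerProductSpace ℝ E] [FiniteDimensional ℝ E]
  [MeasurableSpace E] [BorelSpace E]

variable {m Q : ℕ}

/-- **(D2).** The two pieces of a split are integral cylinders with positive numbers of sheets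
adding up to `Q`. -/
theorem split_int (hm : 1 ≤ m) (Q : ℕ) {δ' c : ℝ} (hδ' : 0 < δ') (hc : 0 < c) :
    ∃ δ : ℝ, 0 < δ ∧ ∀ (T : Submodule ℝ E) (x : E) (t h : ℝ) (ν : Measure E)
      (P : E → E →L[ℝ] E), Skel.IntCyl m Q T x t h δ ν P → Skel.exc T ν P x t ≤ δ * t ^ m →
      Split m T ν x t c → ∃ (b : E) (r : ℝ) (Q₁ Q₂ : ℕ), 1 ≤ Q₁ ∧ 1 ≤ Q₂ ∧ Q₁ + Q₂ = Q ∧
        ∀ x' ∈ T, ∀ s, t / 8 ≤ s → ‖x' - x‖ + s ≤ t →
          Skel.IntCyl m Q₁ T x' s h δ' (ν.restrict (lo T b r)) P ∧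
          Skel.IntCyl m Q₂ T x' s h δ' (ν.restrict (lo T b r)ᶜ) P := by
  have hom := om_pos m
  set δ₁ : ℝ := min δ' (min (Skel.om m / 4) (c / 2)) with hδ₁
  have hδ₁0 : 0 < δ₁ := lt_min hδ' (lt_min (by positivity) (by positivity))
  obtain ⟨δ₂, hδ₂, hnear⟩ := PreCyl.near (E := E) hm (M := Q * Skel.om m + 1) (δ' := δ₁)
    (ρ₀ := 1 / 8) (by positivity) hδ₁0 (by norm_num)
  set δ : ℝ := min δ₂ (min 1 (Skel.om m / 4)) with hδ
  refine ⟨δ, lt_min hδ₂ (lt_min one_pos (by positivity)), ?_⟩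
  intro T x t h ν P hI hexc hsplit
  have ht := hI.pos
  have htm : 0 < t ^ m := by positivity
  have hx := hI.mem
  haveI := hI.cyl.fin
  obtain ⟨b, r, w, hb, hcut, hlow, hup⟩ := hsplit
  obtain ⟨hP1, hP2⟩ := (PreCyl.of_int hI).split hcut
  have hmeas := measurableSet_lo T b r
  have hδδ₂ : δ ≤ δ₂ := min_le_left _ _
  have hδ1 : δ ≤ 1 := (min_le_right _ _).trans (min_le_left _ _)
  have hδo : δ ≤ Skel.om m / 4 := (min_le_right _ _).trans (min_le_right _ _)
  have hmass : ν.real (Skel.cylSet T x t) ≤ (Q * Skel.om m + 1) * t ^ m := by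
    have h1 := (abs_le.1 hI.mass).2
    have h2 : δ * t ^ m ≤ 1 * t ^ m := by gcongr
    linarith
  have hle : ∀ A : Set E, (ν.restrict A).real (Skel.cylSet T x t) ≤ ν.real (Skel.cylSet T x t) := by
    intro A
    exact ENNReal.toReal_mono (measure_ne_top _ _) (Measure.restrict_apply_le A _)
  have hexc' : Skel.exc T ν P x t ≤ δ₂ * t ^ m := hexc.trans (by gcongr)
  obtain ⟨q₁, hq₁⟩ := hnear T x t h _ P hP1 ((hle _).trans hmass)
    ((exc_piece_le hI.cyl _ hmeas x t).trans hexc')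
  obtain ⟨q₂, hq₂⟩ := hnear T x t h _ P hP2 ((hle _).trans hmass)
    ((exc_piece_le hI.cyl _ hmeas.compl x t).trans hexc')
  refine ⟨b, r, q₁, q₂, ?_, ?_, ?_, ?_⟩
  · have h1 := hq₁ x hx (t / 4) (by linarith) (by rw [sub_self, norm_zero]; linarith)
    have h2 : c * t ^ m ≤ (ν.restrict (lo T b r)).real (Skel.cylSet T x (t / 4)) := by
      rw [measureReal_restrict_apply' hmeas, cylSet_eq_cy hx]
      exact hlow
    by_contra h3
    have h4 : q₁ = 0 := by omega
    rw [h4, Nat.cast_zero, zero_mul, zero_mul, sub_zero] at h1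
    have h5 := (le_abs_self _).trans h1
    have h6 : (t / 4) ^ m ≤ t ^ m := by gcongr; linarith
    have h7 : δ₁ ≤ c / 2 := (min_le_right _ _).trans (min_le_right _ _)
    have h8 : δ₁ * (t / 4) ^ m ≤ c / 2 * t ^ m := by gcongr
    have h9 : 0 < c * t ^ m := by positivity
    linarith
  · have h1 := hq₂ x hx (t / 4) (by linarith) (by rw [sub_self, norm_zero]; linarith)
    have h2 : c * t ^ m ≤ (ν.restrict (lo T b r)ᶜ).real (Skel.cylSet T x (t / 4)) := by
      rw [measureReal_restrict_apply' hmeas.compl, cylSet_eq_cy hx]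
      refine hup.trans (measureReal_mono (fun y hy => ⟨hy.1, fun hy2 => ?_⟩))
      have h3 : r + w ≤ ‖hgt T b y‖ := hy.2
      have h4 : ‖hgt T b y‖ ≤ r := hy2
      have h5 := hcut.2.1
      linarith
    by_contra h3
    have h4 : q₂ = 0 := by omega
    rw [h4, Nat.cast_zero, zero_mul, zero_mul, sub_zero] at h1
    have h5 := (le_abs_self _).trans h1
    have h6 : (t / 4) ^ m ≤ t ^ m := by gcongr; linarith
    have h7 : δ₁ ≤ c / 2 := (min_le_right _ _).trans (min_le_right _ _)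
    have h8 : δ₁ * (t / 4) ^ m ≤ c / 2 * t ^ m := by gcongr
    have h9 : 0 < c * t ^ m := by positivity
    linarith
  · have h1 := hq₁ x hx t (by linarith) (by rw [sub_self, norm_zero]; linarith)
    have h2 := hq₂ x hx t (by linarith) (by rw [sub_self, norm_zero]; linarith)
    have h3 := real_split (ν := ν) T b r (Skel.cylSet T x t)
    have h4 := hI.mass
    rw [← h3] at h4
    have h7 : δ₁ ≤ Skel.om m / 4 := (min_le_right _ _).trans (min_le_left _ _)
    have h8 : δ₁ * t ^ m ≤ Skel.om m / 4 * t ^ m := by gcongr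
    have h9 : δ * t ^ m ≤ Skel.om m / 4 * t ^ m := by gcongr
    have h10 : |((q₁:ℝ) + q₂ - Q) * (Skel.om m * t ^ m)| < 1 * (Skel.om m * t ^ m) := by
      rw [abs_lt]
      rw [abs_le] at h1 h2 h4
      have h11 : 0 < Skel.om m * t ^ m := by positivity
      constructor <;> nlinarith [h1.1, h1.2, h2.1, h2.2, h4.1, h4.2]
    rw [abs_mul, abs_of_pos (show 0 < Skel.om m * t ^ m by positivity)] at h10
    have h12 := lt_of_mul_lt_mul_right h10 (by positivity)
    have h13 : |((q₁:ℤ) + q₂ - Q)| < 1 := by exact_mod_cast h12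
    have := Int.abs_lt_one_iff.1 h13
    omega
  · intro x' hx' s hs hsub
    have hs0 : 0 < s := by linarith
    have hball : ball x' s ⊆ ball x t := ball_subset_ball' (by rw [dist_eq_norm]; linarith)
    have hδ₁' : δ₁ ≤ δ' := min_le_left _ _
    constructor
    · refine (hP1.mono hx' hs0 hball).toInt ((hq₁ x' hx' s (by linarith) hsub).trans ?_)
      gcongr
    · refine (hP2.mono hx' hs0 hball).toInt ((hq₂ x' hx' s (by linarith) hsub).trans ?_)
      gcongr

/-- (D2) in the form needed at the split cells -/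
theorem twoPieces (hm : 1 ≤ m) (Q : ℕ) {δ' c : ℝ} (hδ' : 0 < δ') (hc : 0 < c) :
    ∃ δ : ℝ, 0 < δ ∧ ∀ (T : Submodule ℝ E) (x : E) (t h : ℝ) (ν : Measure E)
      (P : E → E →L[ℝ] E), Skel.IntCyl m Q T x t h δ ν P → Skel.exc T ν P x t ≤ δ * t ^ m →
      Split m T ν x t c → ∀ x' ∈ T, ∀ s, t / 8 ≤ s → ‖x' - x‖ + s ≤ t →
        R2.TwoPieces m Q T ν P h δ' x' s := by
  obtain ⟨δ, hδ, H⟩ := split_int (E := E) hm Q hδ' hc
  refine ⟨δ, hδ, fun T x t h ν P hI hexc hsplit x' hx' s hs hsub => ?_⟩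
  obtain ⟨b, r, Q₁, Q₂, h1, h2, h3, h4⟩ := H T x t h ν P hI hexc hsplit
  obtain ⟨h5, h6⟩ := h4 x' hx' s hs hsub
  exact ⟨lo T b r, Q₁, Q₂, measurableSet_lo T b r, h1, h2, h3, h5, h6⟩

/-- `Skel.IntCyl` at all comparable scales, from one scale -/
theorem intCyl_sub (hm : 1 ≤ m) (Q : ℕ) {δ' ρ₀ : ℝ} (hδ' : 0 < δ') (hρ₀ : 0 < ρ₀) :
    ∃ δ : ℝ, 0 < δ ∧ ∀ (T : Submodule ℝ E) (x : E) (t h : ℝ) (ν : Measure E)
      (P : E → E →L[ℝ] E), Skel.IntCyl m Q T x t h δ ν P → Skel.exc T ν P x t ≤ δ * t ^ m →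
      ∀ x' ∈ T, ∀ s, ρ₀ * t ≤ s → ‖x' - x‖ + s ≤ t → Skel.IntCyl m Q T x' s h δ' ν P := by
  have hcm := TCH.cm_pos m
  set K : ℝ := 24 / (TCH.cm m * ρ₀ ^ (m + 1)) with hK
  have hK0 : 0 < K := by positivity
  refine ⟨min (δ' / 2) (δ' / (2 * K)), lt_min (by positivity) (by positivity), ?_⟩
  intro T x t h ν P hI hexc x' hx' s hs hsub
  have ht := hI.pos
  have hs0 : 0 < s := lt_of_lt_of_le (by positivity) hs
  have hball : ball x' s ⊆ ball x t := ball_subset_ball' (by rw [dist_eq_norm]; linarith)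
  refine ((PreCyl.of_int hI).mono hx' hs0 hball).toInt ?_
  have h1 := TCH.mass_sub hI.cyl hI.mem hm hx' hs0 hsub
  have h2 := hI.mass
  set δ : ℝ := min (δ' / 2) (δ' / (2 * K)) with hδ
  have hδ0 : 0 < δ := lt_min (by positivity) (by positivity)
  have h3 : |ν.real (Skel.cylSet T x t) / t ^ m - Q * Skel.om m| ≤ δ := by
    have h4 : ν.real (Skel.cylSet T x t) / t ^ m - Q * Skel.om m =
        (ν.real (Skel.cylSet T x t) - Q * Skel.om m * t ^ m) / t ^ m := by field_simp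
    rw [h4, abs_div, abs_of_pos (show (0:ℝ) < t ^ m by positivity), div_le_iff₀ (by positivity)]
    exact h2
  have h4 : 24 * t / (TCH.cm m * s ^ (m + 1)) * Skel.exc T ν P x t ≤ K * δ := by
    have h5 : (ρ₀ * t) ^ (m + 1) ≤ s ^ (m + 1) := by gcongr
    calc 24 * t / (TCH.cm m * s ^ (m + 1)) * Skel.exc T ν P x t
        ≤ 24 * t / (TCH.cm m * s ^ (m + 1)) * (δ * t ^ m) := by gcongr
      _ ≤ 24 * t / (TCH.cm m * (ρ₀ * t) ^ (m + 1)) * (δ * t ^ m) := by gcongr
      _ = _ := by rw [mul_pow, pow_succ t, hK]; field_simp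
  have h6 : K * δ ≤ δ' / 2 := by
    have : δ ≤ δ' / (2 * K) := min_le_right _ _
    calc K * δ ≤ K * (δ' / (2 * K)) := by gcongr
      _ = _ := by field_simp
  have h7 : δ ≤ δ' / 2 := min_le_left _ _
  have h8 : |ν.real (Skel.cylSet T x' s) / s ^ m - Q * Skel.om m| ≤ δ' := by
    rw [abs_le] at h1 h3 ⊢
    constructor <;> linarith [h1.1, h1.2, h3.1, h3.2]
  have h9 : ν.real (Skel.cylSet T x' s) - Q * Skel.om m * s ^ m =
      (ν.real (Skel.cylSet T x' s) / s ^ m - Q * Skel.om m) * s ^ m := by field_simp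
  rw [h9, abs_mul, abs_of_pos (show (0:ℝ) < s ^ m by positivity)]
  gcongr

end Vale.Agent.P214.B4
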