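import Vale.Agent.P214.B4.Dich
import Vale.Agent.P214.QP.Mean

/-!
# P214, block B4: the dichotomy in dimension two

For `m = 2` the energy of the smaller balls is bounded by the energy of `ball x (4t)`, so the
hypothesis of `dich` is just `A L ∫_{ball x (4t)} tilt ≤ R²`.
-/

open Set Filter Topology MeasureTheory Metric
open scoped RealInnerProductSpace

set_option linter.all false

namespace Vale.Agent.P214.B4

open Vale.Agent.P214.FV Vale.Agent.P214.ODE Vale.Agent.P214.TH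

variable {E : Type*} [NormedAddCommGroup E] [InnerProductSpace ℝ E] [FiniteDimensional ℝ E]
  [MeasurableSpace E] [BorelSpace E]
variable {m : ℕ} {T : Submodule ℝ E} {G : Set E} {h : ℝ} {ν : Measure E} {P : E → E →L[ℝ] E}
  {x : E}

lemma cy_eq_bset {t : ℝ} (ht : 0 ≤ t) : cy T x t = QP.bset T x t := by
  ext y
  show ‖bx T x y‖ < t ↔ bsq T x y < t ^ 2
  unfold bsq
  rw [sq_lt_sq₀ (norm_nonneg _) ht]

lemma cy_subset {z : E} {s t : ℝ} (h : s + ‖bx T x z‖ ≤ t) : cy T z s ⊆ cy T x t := by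
  intro y hy
  show ‖bx T x y‖ < t
  rw [bx_sub T x z y]
  have h1 : ‖bx T z y‖ < s := hy
  calc ‖bx T z y + bx T x z‖ ≤ ‖bx T z y‖ + ‖bx T x z‖ := norm_add_le _ _
    _ < s + ‖bx T x z‖ := by linarith
    _ ≤ t := h

/-- `Dex` is monotone in the ball -/
lemma Dex_le (hC : CylStat m T G h ν P) {z : E} {s t : ℝ} (hs : 0 ≤ s) (ht : 0 ≤ t)
    (h : s + ‖bx T x z‖ ≤ t) : QP.Dex T P ν z s ≤ QP.Dex T P ν x t := by
  unfold QP.Dex
  rw [← cy_eq_bset hs, ← cy_eq_bset ht]
  refine setIntegral_mono_set (TH.integrable_tilt hC).integrableOn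
    (ae_restrict_of_ae (by filter_upwards [ODE.CylStat.tilt_nonneg hC] with y hy using hy)) ?_
  exact (cy_subset h).eventuallyLE

lemma Dex_nonneg (hC : CylStat m T G h ν P) {z : E} {s : ℝ} : 0 ≤ QP.Dex T P ν z s :=
  integral_nonneg_of_ae (ae_restrict_of_ae (by
    filter_upwards [ODE.CylStat.tilt_nonneg hC] with y hy using hy))

/-- `tiltK` with the kernel `cub` is bounded by `Dex` -/
lemma tiltK_le (hC : CylStat m T G h ν P) {z : E} {s : ℝ} (hs : 0 < s) :
    tiltK m T z QP.cub P ν s ≤ 1 / 6 * (s ^ (2 - (m : ℤ)) * QP.Dex T P ν z s) := by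
  haveI := hC.fin
  have hint : Integrable (ODE.tilt T P) ν := TH.integrable_tilt hC
  have hms : MeasurableSet (QP.bset T z s) := (QP.isOpen_bset T z s).measurableSet
  have h1 : ∫ y, QP.cub (bsq T z y / s ^ 2) * ODE.tilt T P y ∂ν ≤ 1 / 6 * QP.Dex T P ν z s := by
    unfold QP.Dex
    rw [← integral_indicator hms, ← integral_const_mul]
    refine integral_mono_of_nonneg ?_ ((hint.indicator hms).const_mul _) ?_
    · filter_upwards [ODE.CylStat.tilt_nonneg hC] with y hy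
      exact mul_nonneg (QP.cub_nonneg _) hy
    · filter_upwards [ODE.CylStat.tilt_nonneg hC] with y hy
      by_cases hyb : y ∈ QP.bset T z s
      · simp only [indicator_of_mem hyb]
        gcongr
        exact QP.cub_le (div_nonneg (bsq_nonneg _ _ _) (by positivity))
      · simp only [indicator_of_notMem hyb, mul_zero]
        have h2 : s ^ 2 ≤ bsq T z y := not_lt.1 hyb
        rw [QP.cub_of_one_le, zero_mul]
        rw [one_le_div (by positivity)]
        exact h2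
  unfold tiltK
  have hz : 0 < s ^ (2 - (m : ℤ)) := zpow_pos hs _
  calc s ^ (2 - (m : ℤ)) * ∫ y, QP.cub (bsq T z y / s ^ 2) * ODE.tilt T P y ∂ν
      ≤ s ^ (2 - (m : ℤ)) * (1 / 6 * QP.Dex T P ν z s) := by gcongr
    _ = _ := by ring

lemma kern_bounds : ∀ s : ℝ, 0 ≤ s → |prof s| ≤ 2 ∧ |(-dprof s)| ≤ 2 ∧ |QP.cub s| ≤ 2 := by
  intro s hs
  refine ⟨?_, ?_, ?_⟩
  · rw [abs_of_nonneg (prof_nonneg s)]
    unfold prof
    have h1 : max (1 - s) 0 ≤ 1 := max_le (by linarith) (by norm_num)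
    have h2 : (0:ℝ) ≤ max (1 - s) 0 := le_max_right _ _
    nlinarith
  · have := dprof_nonneg s
    rw [abs_neg, abs_of_nonneg this]
    unfold dprof
    have h1 : max (1 - s) 0 ≤ 1 := max_le (by linarith) (by norm_num)
    linarith
  · rw [abs_of_nonneg (QP.cub_nonneg s)]
    have := QP.cub_le hs
    linarith

lemma le_prof' {s : ℝ} (hs : s ≤ 1 / 4) : (1 / 2 : ℝ) ≤ prof s := by
  unfold prof
  rw [max_eq_left (by linarith)]
  nlinarith

lemma le_cub' {s : ℝ} (hs : s ≤ 1 / 4) : (1 / 20 : ℝ) ≤ QP.cub s := by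
  have := QP.le_cub hs (by norm_num)
  norm_num at this
  linarith

/-- the heights over `ball x t` split into two parts, both with mass `≥ c t^m` over
`ball x (t/4)` -/
def Split (m : ℕ) (T : Submodule ℝ E) (ν : Measure E) (x : E) (t c : ℝ) : Prop :=
  ∃ b r w, b ∈ Tᗮ ∧ Cut T ν x t b r w ∧
    c * t ^ m ≤ ν.real (cy T x (t / 4) ∩ {y | ‖hgt T b y‖ ≤ r}) ∧
    c * t ^ m ≤ ν.real (cy T x (t / 4) ∩ {y | r + w ≤ ‖hgt T b y‖})

/-- **Dichotomy in dimension two.** -/
theorem dich_two {a M : ℝ} (ha : 0 < a) : ∃ A c C : ℝ, 0 < A ∧ 0 < c ∧ 1 ≤ C ∧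
    ∀ {T : Submodule ℝ E} {G : Set E} {h : ℝ} {ν : Measure E} {P : E → E →L[ℝ] E} {x : E}
      {t R L : ℝ}, CylStat 2 T G h ν P → BallIn T G x (10 * t) →
      (∀ᵐ y ∂ν, y ∈ cy T x (8 * t) → LDpt 2 a ν t y) → ν.real (cy T x (9 * t)) ≤ M * t ^ 2 →
      0 < R → R ≤ t → 1 ≤ L → Real.log (t / R) ≤ L →
      A * L * QP.Dex T P ν x (10 * t) ≤ R ^ 2 →
      (∀ y₁ ∈ cy T x t, LDpt 2 a ν t y₁ →
        ∀ᵐ y ∂ν, y ∈ cy T x t → ‖hgt T (co T y₁) y‖ ≤ C * R) ∨ Split 2 T ν x (8 * t) c := by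
  have hg := gapC_pos (m := 2) (κ := 1 / 2) (B := 2) (by norm_num) (by norm_num) ha
  have hdc : 0 < dc 2 (1 / 2) 2 a := by unfold dc; positivity
  have hdA : 0 < dA 2 (1 / 2) (1 / 20) 2 a := by unfold dA; positivity
  obtain ⟨N, hN⟩ := exists_nat_gt (M / dc 2 (1 / 2) 2 a)
  refine ⟨dA 2 (1 / 2) (1 / 20) 2 a, dc 2 (1 / 2) 2 a / 64, 8 * N + 1, hdA, by positivity, ?_, ?_⟩
  · have : (0:ℝ) ≤ N := by positivity
    linarith
  intro T G h ν P x t R L hC hG hLD hM hR hRt hL1 hL hE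
  have ht0 : 0 < t := hR.trans_le hRt
  have key := dich hC QP.kern (B := 2) (κ := 1 / 2) (κ₁ := 1 / 20) (by norm_num) kern_bounds
    (by norm_num) (fun s _ hs => le_prof' hs) (by norm_num) (fun s _ hs => le_cub' hs) ha hR hRt
    (s₀ := 8 * t) (by linarith) (x := x)
    (by have e : 8 * t + 2 * t = 10 * t := by ring
        rw [e]; exact hG) hLD
    (by have e : 8 * t + t = 9 * t := by ring
        rw [e]; exact hM) hL1 hL ?_ (N := N) ?_
  · rcases key with h1 | ⟨c, r, h1, h2, -, -, h3, h4⟩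
    · exact Or.inl h1
    · refine Or.inr ⟨c, r, 4 * R, h1, h2, ?_, ?_⟩
      · have e : 8 * t / 4 = 2 * t := by ring
        rw [e]
        refine le_trans (le_of_eq ?_) h3
        ring
      · have e : 8 * t / 4 = 2 * t := by ring
        rw [e]
        refine le_trans (le_of_eq ?_) h4
        ring
  · intro x₀ hx₀ t' ht'
    have ht'0 : 0 < t' := hR.trans_le ht'.1
    refine le_trans ?_ hE
    have hL0 : 0 ≤ L := by linarith
    gcongr
    refine (tiltK_le hC (z := x₀) (s := 2 * t') (by positivity)).trans ?_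
    have h1 : (2 * t') ^ (2 - ((2 : ℕ) : ℤ)) = 1 := by norm_num
    rw [h1, one_mul]
    have h2 : QP.Dex T P ν x₀ (2 * t') ≤ QP.Dex T P ν x (10 * t) :=
      Dex_le hC (by positivity) (by positivity) (by
        have : ‖bx T x x₀‖ < 8 * t := hx₀
        linarith [ht'.2])
    have h3 : 0 ≤ QP.Dex T P ν x₀ (2 * t') := Dex_nonneg hC
    linarith
  · rw [div_lt_iff₀ hdc] at hN
    exact hN

end Vale.Agent.P214.B4
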